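import Vale.Agent.P141.Gauss

/-! Typical sets for the discrete Gaussian and their projection to the integers. -/

namespace Vale.Agent.P141

open Real Finset

variable {ι : Type*} [Fintype ι]

/-- Product weights. -/
def pw (p : ι → ℝ) {k : ℕ} (v : Fin k → ι) : ℝ := ∏ i, p (v i)

lemma pw_moments [DecidableEq ι] (p g : ι → ℝ) (hp : ∑ j, p j = 1) (hg : ∑ j, p j * g j = 0) :
    ∀ k : ℕ, (∑ v : Fin k → ι, pw p v = 1) ∧ (∑ v : Fin k → ι, pw p v * ∑ i, g (v i) = 0) ∧
      (∑ v : Fin k → ι, pw p v * (∑ i, g (v i)) ^ 2 = k * ∑ j, p j * g j ^ 2) := by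
  intro k
  induction k with
  | zero => simp [pw]
  | succ k ih =>
    obtain ⟨h0, h1, h2⟩ := ih
    have e : ∀ F : (Fin (k + 1) → ι) → ℝ,
        ∑ v, F v = ∑ j : ι, ∑ u : Fin k → ι, F (Fin.cons j u) := by
      intro F
      rw [← (Fin.consEquiv (fun _ => ι)).sum_comp, Fintype.sum_prod_type]
      rfl
    refine ⟨?_, ?_, ?_⟩
    · rw [e]
      simp only [pw, Fin.prod_univ_succ, Fin.cons_zero, Fin.cons_succ, ← Finset.mul_sum]
      rw [show (∑ u : Fin k → ι, ∏ i, p (u i)) = 1 from h0]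
      simpa using hp
    · rw [e]
      have : ∀ j : ι, ∀ u : Fin k → ι, pw p (Fin.cons j u : Fin (k + 1) → ι) *
          ∑ i, g ((Fin.cons j u : Fin (k + 1) → ι) i) =
          p j * g j * pw p u + p j * (pw p u * ∑ i, g (u i)) := by
        intro j u
        simp only [pw, Fin.prod_univ_succ, Fin.sum_univ_succ, Fin.cons_zero, Fin.cons_succ]
        ring
      simp only [this, Finset.sum_add_distrib, ← Finset.mul_sum, h0, h1]
      simp [hg]
    · rw [e]
      have : ∀ j : ι, ∀ u : Fin k → ι, pw p (Fin.cons j u : Fin (k + 1) → ι) *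
          (∑ i, g ((Fin.cons j u : Fin (k + 1) → ι) i)) ^ 2 =
          p j * g j ^ 2 * pw p u + 2 * (p j * g j) * (pw p u * ∑ i, g (u i)) +
            p j * (pw p u * (∑ i, g (u i)) ^ 2) := by
        intro j u
        simp only [pw, Fin.prod_univ_succ, Fin.sum_univ_succ, Fin.cons_zero, Fin.cons_succ]
        ring
      simp only [this, Finset.sum_add_distrib, ← Finset.mul_sum, ← Finset.sum_mul, h0, h1, h2]
      rw [hp]
      push_cast
      ring

/-- Chebyshev: the weight of an upper deviation of an additive statistic. -/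
lemma deviation_weight [DecidableEq ι] {k : ℕ} (hk : 0 < k) (p f : ι → ℝ) (hp0 : ∀ j, 0 ≤ p j)
    (hp : ∑ j, p j = 1) {η : ℝ} (hη : 0 < η) :
    ∑ v ∈ univ.filter (fun v : Fin k → ι => k * ((∑ j, p j * f j) + η) < ∑ i, f (v i)), pw p v
      ≤ (∑ j, p j * (f j - ∑ l, p l * f l) ^ 2) / (k * η ^ 2) := by
  set E := ∑ j, p j * f j with hE
  have hg : ∑ j, p j * (f j - E) = 0 := by
    simp only [mul_sub, Finset.sum_sub_distrib, ← Finset.sum_mul, hp, ← hE, one_mul, sub_self]
  have h2 := (pw_moments p (fun j => f j - E) hp hg k).2.2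
  rw [le_div_iff₀ (by positivity)]
  have hk' : (0 : ℝ) < k := by exact_mod_cast hk
  refine le_of_mul_le_mul_left ?_ hk'
  rw [← h2, Finset.sum_mul, Finset.mul_sum]
  calc _ ≤ ∑ v ∈ univ.filter (fun v : Fin k → ι => k * (E + η) < ∑ i, f (v i)),
        pw p v * (∑ i, (f (v i) - E)) ^ 2 := by
        apply Finset.sum_le_sum
        intro v hv
        have hv' := (Finset.mem_filter.mp hv).2
        have hw : 0 ≤ pw p v := Finset.prod_nonneg fun i _ => hp0 _
        have : (k * η) ^ 2 ≤ (∑ i, (f (v i) - E)) ^ 2 := by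
          apply pow_le_pow_left₀ (by positivity)
          simp only [Finset.sum_sub_distrib, Finset.sum_const, Finset.card_univ, Fintype.card_fin,
            nsmul_eq_mul]
          linarith
        calc (k : ℝ) * (pw p v * (k * η ^ 2)) = pw p v * (k * η) ^ 2 := by ring
          _ ≤ _ := mul_le_mul_of_nonneg_left this hw
    _ ≤ _ := Finset.sum_le_sum_of_subset_of_nonneg (Finset.subset_univ _)
        (fun v _ _ => mul_nonneg (Finset.prod_nonneg fun i _ => hp0 _) (sq_nonneg _))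

/-- A set all of whose points are probable under a product kernel is small. -/
lemma card_le_exp {k : ℕ} (q : Fin k → ℤ → ℝ) (hq : ∀ i n, 0 < q i n)
    (hqs : ∀ i (S : Finset ℤ), ∑ n ∈ S, q i n ≤ 1) (Y : Finset (Fin k → ℤ)) {K : ℝ}
    (hY : ∀ y ∈ Y, ∑ i, -log (q i (y i)) ≤ K) : (Y.card : ℝ) ≤ exp K := by
  have h1 : (Y.card : ℝ) * exp (-K) ≤ ∑ y ∈ Y, ∏ i, q i (y i) := by
    rw [← nsmul_eq_mul]
    refine Finset.card_nsmul_le_sum _ _ _ fun y hy => ?_
    rw [← exp_log (Finset.prod_pos fun i _ => hq i (y i)), log_prod fun i _ => (hq i (y i)).ne']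
    apply exp_le_exp.mpr
    have := hY y hy
    rw [Finset.sum_neg_distrib] at this
    linarith
  have h2 : ∑ y ∈ Y, ∏ i, q i (y i) ≤ 1 := by
    calc _ ≤ ∑ y ∈ Fintype.piFinset (fun i => Y.image (fun y => y i)), ∏ i, q i (y i) :=
          Finset.sum_le_sum_of_subset_of_nonneg
            (fun y hy => Fintype.mem_piFinset.mpr fun i => Finset.mem_image_of_mem _ hy)
            (fun y _ _ => Finset.prod_nonneg fun i _ => (hq i _).le)
      _ = ∏ i, ∑ n ∈ Y.image (fun y => y i), q i n := (Finset.prod_univ_sum _ _).symm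
      _ ≤ 1 := Finset.prod_le_one (fun i _ => Finset.sum_nonneg fun n _ => (hq i n).le)
            (fun i _ => hqs i _)
  have := h1.trans h2
  rw [exp_neg, ← div_eq_mul_inv, div_le_one (exp_pos K)] at this
  exact this

/-- A random integral linear form. -/
def proj {k Q : ℕ} (w : Fin k → Fin Q) (z : Fin k → ℤ) : ℤ := ∑ i, ((w i : ℕ) : ℤ) * z i

lemma proj_sub {k Q : ℕ} (w : Fin k → Fin Q) (z z' : Fin k → ℤ) :
    proj w (fun i => z i - z' i) = proj w z - proj w z' := by
  simp [proj, mul_sub, Finset.sum_sub_distrib]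

lemma card_zero_proj {k Q : ℕ} {z : Fin k → ℤ} (hz : z ≠ 0) :
    (univ.filter (fun w : Fin k → Fin Q => proj w z = 0)).card * Q ≤ Q ^ k := by
  obtain ⟨i0, hi0⟩ := Function.ne_iff.mp hz
  calc _ = ((univ.filter (fun w : Fin k → Fin Q => proj w z = 0)) ×ˢ
        (univ : Finset (Fin Q))).card := by simp [Finset.card_product]
    _ ≤ (univ : Finset (Fin k → Fin Q)).card := by
        refine Finset.card_le_card_of_injOn (fun p => Function.update p.1 i0 p.2)
          (fun p _ => Finset.mem_univ _) ?_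
        rintro ⟨w, j⟩ hw ⟨w', j'⟩ hw' h
        simp only [Finset.coe_product, Set.mem_prod, Finset.coe_filter, Set.mem_ofPred_eq,
          Finset.mem_univ, true_and] at hw hw'
        simp only at h
        have hj : j = j' := by simpa using congrFun h i0
        have hne : ∀ i, i ≠ i0 → w i = w' i := fun i hi => by
          simpa [Function.update_of_ne hi] using congrFun h i
        have e : proj w z - proj w' z = (((w i0 : ℕ) : ℤ) - ((w' i0 : ℕ) : ℤ)) * z i0 := by
          simp only [proj, ← Finset.sum_sub_distrib]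
          rw [Finset.sum_eq_single i0]
          · ring
          · intro i _ hi; rw [hne i hi]; ring
          · simp
        rw [hw.1, hw'.1, sub_zero] at e
        have h0 : ((w i0 : ℕ) : ℤ) - ((w' i0 : ℕ) : ℤ) = 0 := by
          rcases mul_eq_zero.mp e.symm with h0 | h0
          · exact h0
          · exact absurd h0 hi0
        have hw0 : w i0 = w' i0 := Fin.ext (by omega)
        refine Prod.ext (funext fun i => ?_) hj
        by_cases hi : i = i0
        · subst hi; exact hw0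
        · exact hne i hi
    _ = Q ^ k := by simp [Fintype.card_fin]

open Classical in
/-- A linear form separating, on half of a finite set, the first coordinate globally and the
second coordinate on each fibre of the first. -/
lemma exists_proj {α : Type*} {k : ℕ} (G : Finset α) (X T : α → Fin k → ℤ) {F Q : ℕ}
    (hF : ∀ g ∈ G, (G.filter (fun g' => X g' = X g)).card ≤ F)
    (hQ : 2 * ((G.image X).card + F) ≤ Q) (hQ0 : 0 < Q) :
    ∃ (w : Fin k → Fin Q) (G' : Finset α), G' ⊆ G ∧ G.card ≤ 2 * G'.card ∧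
      ∀ g ∈ G', ∀ g' ∈ G', proj w (X g) = proj w (X g') →
        X g = X g' ∧ (proj w (T g) = proj w (T g') → T g = T g') := by
  set bad : (Fin k → Fin Q) → α → Prop := fun w g =>
    (∃ y ∈ G.image X, y ≠ X g ∧ proj w y = proj w (X g)) ∨
    (∃ g' ∈ G, X g' = X g ∧ T g' ≠ T g ∧ proj w (T g') = proj w (T g)) with hbad
  have hone : ∀ y y' : Fin k → ℤ, y ≠ y' →
      (univ.filter (fun w : Fin k → Fin Q => proj w y = proj w y')).card * Q ≤ Q ^ k := by
    intro y y' hy
    have hz : (fun i => y i - y' i) ≠ 0 := fun h =>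
      hy (funext fun i => sub_eq_zero.mp (congrFun h i))
    have := card_zero_proj (Q := Q) hz
    simp only [proj_sub, sub_eq_zero] at this
    exact this
  have hg : ∀ g ∈ G, 2 * (univ.filter (fun w => bad w g)).card ≤ Q ^ k := by
    intro g hg
    set A := ((G.image X).filter (fun y => y ≠ X g)).biUnion
      (fun y => univ.filter (fun w : Fin k → Fin Q => proj w y = proj w (X g))) with hA
    set B := (G.filter (fun g' => X g' = X g ∧ T g' ≠ T g)).biUnion
      (fun g' => univ.filter (fun w : Fin k → Fin Q => proj w (T g') = proj w (T g))) with hB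
    have hsub : univ.filter (fun w => bad w g) ⊆ A ∪ B := by
      intro w hw
      rcases (Finset.mem_filter.mp hw).2 with ⟨y, hy, hne, he⟩ | ⟨g', hg', hx, hne, he⟩
      · apply Finset.mem_union_left
        simp only [hA, Finset.mem_biUnion, Finset.mem_filter, Finset.mem_univ, true_and]
        exact ⟨y, ⟨hy, hne⟩, he⟩
      · apply Finset.mem_union_right
        simp only [hB, Finset.mem_biUnion, Finset.mem_filter, Finset.mem_univ, true_and]
        exact ⟨g', ⟨hg', hx, hne⟩, he⟩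
    have hAc : A.card * Q ≤ (G.image X).card * Q ^ k := by
      refine (Nat.mul_le_mul_right Q Finset.card_biUnion_le).trans ?_
      rw [Finset.sum_mul]
      refine (Finset.sum_le_card_nsmul _ _ _ fun y hy => hone _ _ (Finset.mem_filter.mp hy).2).trans
        ?_
      rw [smul_eq_mul]
      exact Nat.mul_le_mul_right _ (Finset.card_filter_le _ _)
    have hBc : B.card * Q ≤ F * Q ^ k := by
      refine (Nat.mul_le_mul_right Q Finset.card_biUnion_le).trans ?_
      rw [Finset.sum_mul]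
      refine (Finset.sum_le_card_nsmul _ _ _
        fun g' hg' => hone _ _ (Finset.mem_filter.mp hg').2.2).trans ?_
      rw [smul_eq_mul]
      refine Nat.mul_le_mul_right _ ((Finset.card_le_card ?_).trans (hF g hg))
      intro g' hg'
      simp only [Finset.mem_filter] at hg' ⊢
      exact ⟨hg'.1, hg'.2.1⟩
    refine Nat.le_of_mul_le_mul_right ?_ hQ0
    calc 2 * (univ.filter (fun w => bad w g)).card * Q ≤ 2 * (A.card + B.card) * Q := by
          gcongr
          exact (Finset.card_le_card hsub).trans (Finset.card_union_le _ _)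
      _ ≤ 2 * ((G.image X).card + F) * Q ^ k := by nlinarith
      _ ≤ Q ^ k * Q := by rw [mul_comm (Q ^ k)]; exact Nat.mul_le_mul_right _ hQ
  haveI : Nonempty (Fin k → Fin Q) := ⟨fun _ => ⟨0, hQ0⟩⟩
  obtain ⟨w, hw⟩ : ∃ w, G.card ≤ 2 * (G.filter (fun g => ¬ bad w g)).card := by
    by_contra hcon
    push Not at hcon
    have hlt : ∀ w, 2 * (G.filter (fun g => ¬ bad w g)).card < G.card := hcon
    have hgt : ∀ w, G.card < 2 * (G.filter (fun g => bad w g)).card := by
      intro w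
      have := Finset.card_filter_add_card_filter_not (s := G) (fun g => bad w g)
      have := hlt w
      omega
    have h1 : ∑ w : Fin k → Fin Q, G.card < ∑ w : Fin k → Fin Q,
        2 * (G.filter (fun g => bad w g)).card :=
      Finset.sum_lt_sum_of_nonempty Finset.univ_nonempty fun w _ => hgt w
    have h2 : ∑ w : Fin k → Fin Q, (G.filter (fun g => bad w g)).card
        = ∑ g ∈ G, (univ.filter (fun w => bad w g)).card := by
      simp only [Finset.card_filter]
      exact Finset.sum_comm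
    rw [← Finset.mul_sum, h2, Finset.mul_sum] at h1
    have h3 := h1.trans_le (Finset.sum_le_card_nsmul _ _ _ hg)
    simp [mul_comm] at h3
  refine ⟨w, G.filter (fun g => ¬ bad w g), Finset.filter_subset _ _, hw, ?_⟩
  intro g hgG g' hg'G he
  have hgb := (Finset.mem_filter.mp hgG).2
  have hgG' := (Finset.mem_filter.mp hg'G).1
  have hX : X g = X g' := by
    by_contra hne
    exact hgb (Or.inl ⟨X g', Finset.mem_image_of_mem _ hgG', fun h => hne h.symm, he.symm⟩)
  refine ⟨hX, fun ht => ?_⟩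
  by_contra hne
  exact hgb (Or.inr ⟨g', hgG', hX.symm, fun h => hne h.symm, ht.symm⟩)

lemma proj_abs_le {k Q : ℕ} (w : Fin k → Fin Q) (z : Fin k → ℤ) {B : ℕ}
    (hz : ∀ i, |z i| ≤ B) : |proj w z| ≤ k * Q * B := by
  refine (Finset.abs_sum_le_sum_abs _ _).trans ?_
  calc ∑ i, |((w i : ℕ) : ℤ) * z i| ≤ ∑ _i : Fin k, (Q : ℤ) * B := by
        apply Finset.sum_le_sum
        intro i _
        rw [abs_mul, Nat.abs_cast]
        exact mul_le_mul (by exact_mod_cast (w i).isLt.le) (hz i) (abs_nonneg _) (by positivity)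
    _ = _ := by simp [mul_assoc]

lemma final_estimate {r C γ η M Xh Fh Pe k B c0 N X F Q G G' : ℝ}
    (hC : 0 ≤ C) (hr0 : 0 < r) (hr1 : r < 1) (hk : 1 ≤ k) (hB : 1 ≤ B)
    (hk3 : 2 * c0 / (γ / 2) ^ 2 < k) (hc0 : c0 = 16 * C * (4 * B) + 1)
    (hη : η = γ / 6) (hγ : γ = Pe - (M + r * Xh + (1 - r) * Fh)) (hγpos : 0 < γ)
    (hFX : Fh ≤ Xh) (hN0 : 0 ≤ N) (hN : N ≤ exp (k * (M + η)))
    (hX0 : 0 ≤ X) (hX : X ≤ exp (k * (Xh + η))) (hF0 : 0 ≤ F) (hF : F ≤ exp (k * (Fh + η)))
    (hQ : Q = 2 * (X + F)) (hG' : G ≤ 2 * G') (hG : exp (k * (Pe - η)) / 2 ≤ G) :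
    C * N * (k * Q * B) ^ r * F ^ (1 - r) < G' := by
  have hQ0 : 0 ≤ Q := by rw [hQ]; positivity
  have hexp : exp (k * (Fh + η)) ≤ exp (k * (Xh + η)) := by gcongr
  have hS : k * Q * B ≤ 4 * B * k * exp (k * (Xh + η)) := by
    calc k * Q * B ≤ k * (4 * exp (k * (Xh + η))) * B := by gcongr; linarith
      _ = _ := by ring
  have hBk : 1 ≤ 4 * B * k := by nlinarith
  have hSr : (k * Q * B) ^ r ≤ 4 * B * k * exp (r * (k * (Xh + η))) := by
    calc _ ≤ (4 * B * k * exp (k * (Xh + η))) ^ r := rpow_le_rpow (by positivity) hS hr0.le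
      _ = (4 * B * k) ^ r * exp (r * (k * (Xh + η))) := by
          rw [mul_rpow (by positivity) (exp_pos _).le, ← exp_mul, mul_comm (k * (Xh + η)) r]
      _ ≤ _ := by
          gcongr
          calc (4 * B * k) ^ r ≤ (4 * B * k) ^ (1 : ℝ) :=
                rpow_le_rpow_of_exponent_le hBk hr1.le
            _ = _ := rpow_one _
  have hFr : F ^ (1 - r) ≤ exp ((1 - r) * (k * (Fh + η))) := by
    calc _ ≤ exp (k * (Fh + η)) ^ (1 - r) := rpow_le_rpow hF0 hF (by linarith)
      _ = _ := by rw [← exp_mul, mul_comm]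
  have hgrow : 4 * (C * (4 * B * k)) < exp (k * (γ / 2)) := by
    have h0 : 0 ≤ k * (γ / 2) := by positivity
    have hb := quadratic_le_exp_of_nonneg h0
    rw [div_lt_iff₀ (by positivity)] at hk3
    have hm := mul_lt_mul_of_pos_left hk3 (show (0 : ℝ) < k by linarith)
    have hCB : 0 ≤ C * B * k := by positivity
    rw [hc0] at hm
    nlinarith
  calc C * N * (k * Q * B) ^ r * F ^ (1 - r)
      ≤ C * exp (k * (M + η)) * (4 * B * k * exp (r * (k * (Xh + η)))) *
        exp ((1 - r) * (k * (Fh + η))) := by gcongr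
    _ = C * (4 * B * k) * exp (k * (Pe - η) - k * (γ / 2)) := by
        rw [show k * (Pe - η) - k * (γ / 2) = k * (M + η) + r * (k * (Xh + η)) +
          (1 - r) * (k * (Fh + η)) by rw [hη, hγ]; ring, exp_add, exp_add]
        ring
    _ < exp (k * (Pe - η)) / 4 := by
        rw [exp_sub, lt_div_iff₀ (by norm_num : (0:ℝ) < 4)]
        calc C * (4 * B * k) * (exp (k * (Pe - η)) / exp (k * (γ / 2))) * 4
            = exp (k * (Pe - η)) * (4 * (C * (4 * B * k)) / exp (k * (γ / 2))) := by ring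
          _ < exp (k * (Pe - η)) * 1 := by
              gcongr
              rwa [div_lt_one (exp_pos _)]
          _ = _ := mul_one _
    _ ≤ _ := by linarith

lemma typical_weight [DecidableEq ι] {k : ℕ} (hk : 0 < k) (p : ι → ℝ) (hp0 : ∀ j, 0 ≤ p j)
    (hp : ∑ j, p j = 1) (fs : Fin 6 → ι → ℝ) {η : ℝ} (hη : 0 < η)
    (hk1 : 2 * (∑ j, ∑ v, p v * (fs j v - ∑ l, p l * fs j l) ^ 2) / η ^ 2 < k) :
    1 / 2 ≤ ∑ v ∈ univ.filter (fun v : Fin k → ι =>
      ∀ j, ∑ i, fs j (v i) ≤ k * ((∑ l, p l * fs j l) + η)), pw p v := by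
  classical
  have htot := (pw_moments p (fun _ => 0) hp (by simp) k).1
  have hsplit := (Finset.sum_filter_add_sum_filter_not (univ : Finset (Fin k → ι))
    (fun v => ∀ j, ∑ i, fs j (v i) ≤ k * ((∑ l, p l * fs j l) + η)) (pw p)).symm
  have hbadw : ∑ v ∈ univ.filter (fun v : Fin k → ι =>
        ¬ ∀ j, ∑ i, fs j (v i) ≤ k * ((∑ l, p l * fs j l) + η)), pw p v
      ≤ (∑ j, ∑ v, p v * (fs j v - ∑ l, p l * fs j l) ^ 2) / (k * η ^ 2) := by
    calc _ ≤ ∑ j, ∑ v ∈ univ.filter (fun v : Fin k → ι =>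
          k * ((∑ l, p l * fs j l) + η) < ∑ i, fs j (v i)), pw p v := by
          simp only [Finset.sum_filter]
          rw [Finset.sum_comm]
          apply Finset.sum_le_sum
          intro v _
          have hw : 0 ≤ pw p v := Finset.prod_nonneg fun i _ => hp0 _
          have hnn : ∀ j ∈ (univ : Finset (Fin 6)), 0 ≤
              (if k * ((∑ l, p l * fs j l) + η) < ∑ i, fs j (v i) then pw p v else 0) :=
            fun j _ => by split_ifs <;> simp [hw]
          split_ifs with hall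
          · exact Finset.sum_nonneg hnn
          · push Not at hall
            obtain ⟨j, hj⟩ := hall
            refine le_trans ?_ (Finset.single_le_sum hnn (Finset.mem_univ j))
            rw [if_pos hj]
      _ ≤ ∑ j, (∑ v, p v * (fs j v - ∑ l, p l * fs j l) ^ 2) / (k * η ^ 2) :=
          Finset.sum_le_sum fun j _ => deviation_weight hk p (fs j) hp0 hp hη
      _ = _ := by rw [Finset.sum_div]
  have hsmall : (∑ j, ∑ v, p v * (fs j v - ∑ l, p l * fs j l) ^ 2) / (k * η ^ 2) ≤ 1 / 2 := by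
    rw [div_le_iff₀ (by positivity)]
    rw [div_lt_iff₀ (by positivity)] at hk1
    linarith
  linarith

lemma weighted_prod_le {a₁ a₂ a₃ A B C MA MB MC k η : ℝ} (ha1 : 0 ≤ a₁) (ha2 : 0 ≤ a₂)
    (ha3 : 0 ≤ a₃) (hasum : a₁ + a₂ + a₃ = 1) (hA0 : 0 ≤ A) (hB0 : 0 ≤ B) (hC0 : 0 ≤ C)
    (hA : A ≤ exp (k * (MA + η))) (hB : B ≤ exp (k * (MB + η))) (hC : C ≤ exp (k * (MC + η))) :
    A ^ a₁ * B ^ a₂ * C ^ a₃ ≤ exp (k * (a₁ * MA + a₂ * MB + a₃ * MC + η)) := by
  have e : exp (k * (a₁ * MA + a₂ * MB + a₃ * MC + η)) = exp (k * (MA + η)) ^ a₁ *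
      exp (k * (MB + η)) ^ a₂ * exp (k * (MC + η)) ^ a₃ := by
    rw [← exp_mul, ← exp_mul, ← exp_mul, ← exp_add, ← exp_add]
    congr 1
    linear_combination -(k * η) * hasum
  rw [e]
  exact mul_le_mul (mul_le_mul (rpow_le_rpow hA0 hA ha1)
    (rpow_le_rpow hB0 hB ha2) (by positivity) (by positivity))
    (rpow_le_rpow hC0 hC ha3) (by positivity) (by positivity)

/-- Projection of a set of lattice vectors to integer pairs. -/
lemma project_pairs {D : Finset (ℤ × ℤ)} {k B F : ℕ} (hkpos : 0 < k) (hB1 : 1 ≤ B)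
    (hB : ∀ v ∈ D, 3 * |v.1| + 3 * |v.2| ≤ (B : ℤ)) (G : Finset (Fin k → D))
    (mA mB mC mX mT : (Fin k → D) → Fin k → ℤ)
    (hmA : mA = fun v i => (v i : ℤ × ℤ).1) (hmC : mC = fun v i => (v i : ℤ × ℤ).2)
    (hmB : mB = fun v i => (v i : ℤ × ℤ).1 + (v i : ℤ × ℤ).2)
    (hmX : mX = fun v i => 3 * (v i : ℤ × ℤ).1 - (v i : ℤ × ℤ).2)
    (hmT : mT = fun v i => (v i : ℤ × ℤ).1 - (v i : ℤ × ℤ).2)
    (hF : ∀ g ∈ G, (G.filter (fun g' => mX g' = mX g)).card ≤ F) (hF1 : 1 ≤ F) :
    ∃ P : Finset (ℤ × ℤ), G.card ≤ 2 * P.card ∧ 1 ≤ k * (2 * ((G.image mX).card + F)) * B ∧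
      (∀ p ∈ P, |p.1| ≤ ((k * (2 * ((G.image mX).card + F)) * B : ℕ) : ℤ) ∧
        |p.2| ≤ ((k * (2 * ((G.image mX).card + F)) * B : ℕ) : ℤ)) ∧
      (P.image (fun p => p.1 - 1 * p.2)).card ≤ (G.image mA).card ∧
      (P.image (fun p => p.1 - 2 * p.2)).card ≤ (G.image mB).card ∧
      (P.image (fun p => p.1 - 3 * p.2)).card ≤ (G.image mC).card ∧
      (∀ x, (P.filter (fun p => p.1 = x)).card ≤ F) := by
  classical
  set Q : ℕ := 2 * ((G.image mX).card + F) with hQ
  have hQ0 : 0 < Q := by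
    omega
  obtain ⟨w, G', hG'sub, hG'card, hG'⟩ := exists_proj G mX mT hF le_rfl hQ0
  set Ψ : (Fin k → D) → ℤ × ℤ := fun v => (proj w (mX v), proj w (mT v)) with hΨ
  have hinj : Set.InjOn Ψ G' := by
    intro v hv v' hv' he
    simp only [hΨ, Prod.mk.injEq] at he
    obtain ⟨hx, ht⟩ := hG' v hv v' hv' he.1
    have ht' := ht he.2
    funext i
    have h1 := congrFun hx i
    have h2 := congrFun ht' i
    simp only [hmX, hmT] at h1 h2
    apply Subtype.ext
    ext <;> omega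
  have hlin : ∀ (a j : ℤ) (m : (Fin k → D) → Fin k → ℤ),
      (∀ v i, mX v i - j * mT v i = a * m v i) →
      ((G'.image Ψ).image (fun q : ℤ × ℤ => q.1 - j * q.2)).card ≤ (G.image m).card := by
    intro a j m hm
    rw [Finset.image_image]
    refine (Finset.card_le_card ?_).trans (Finset.card_image_le (f := fun z => a * proj w z))
    intro z hz
    obtain ⟨v, hv, rfl⟩ := Finset.mem_image.mp hz
    refine Finset.mem_image.mpr ⟨m v, Finset.mem_image_of_mem _ (hG'sub hv), ?_⟩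
    simp only [Function.comp_apply, hΨ, proj, Finset.mul_sum, ← Finset.sum_sub_distrib]
    refine Finset.sum_congr rfl fun i _ => ?_
    linear_combination -((w i : ℕ) : ℤ) * hm v i
  refine ⟨G'.image Ψ, ?_, ?_, ?_, ?_, ?_, ?_, ?_⟩
  · rw [Finset.card_image_of_injOn hinj]; exact hG'card
  · exact Nat.mul_pos (Nat.mul_pos hkpos hQ0) hB1
  · intro q hq
    obtain ⟨v, hv, rfl⟩ := Finset.mem_image.mp hq
    have hbd : ∀ i, 3 * |(v i : ℤ × ℤ).1| + 3 * |(v i : ℤ × ℤ).2| ≤ B := fun i => hB _ (v i).2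
    push_cast
    constructor
    · refine proj_abs_le w _ fun i => ?_
      have := hbd i
      have := le_abs_self (v i : ℤ × ℤ).1
      have := neg_abs_le (v i : ℤ × ℤ).1
      have := le_abs_self (v i : ℤ × ℤ).2
      have := neg_abs_le (v i : ℤ × ℤ).2
      simp only [hmX, abs_le]
      omega
    · refine proj_abs_le w _ fun i => ?_
      have := hbd i
      have := le_abs_self (v i : ℤ × ℤ).1
      have := neg_abs_le (v i : ℤ × ℤ).1
      have := le_abs_self (v i : ℤ × ℤ).2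
      have := neg_abs_le (v i : ℤ × ℤ).2
      simp only [hmT, abs_le]
      omega
  · exact hlin 2 1 mA fun v i => by simp only [hmX, hmT, hmA]; ring
  · exact hlin 1 2 mB fun v i => by simp only [hmX, hmT, hmB]; ring
  · exact hlin 2 3 mC fun v i => by simp only [hmX, hmT, hmC]; ring
  · intro x
    rcases ((G'.image Ψ).filter (fun q => q.1 = x)).eq_empty_or_nonempty with h | ⟨q, hq⟩
    · rw [h]; simp
    · obtain ⟨hq1, hq2⟩ := Finset.mem_filter.mp hq
      obtain ⟨g, hg, rfl⟩ := Finset.mem_image.mp hq1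
      refine le_trans ((Finset.card_le_card ?_).trans (Finset.card_image_le (f := Ψ)))
        (hF g (hG'sub hg))
      intro q hq
      obtain ⟨hq1', hq2'⟩ := Finset.mem_filter.mp hq
      obtain ⟨g', hg', rfl⟩ := Finset.mem_image.mp hq1'
      refine Finset.mem_image.mpr ⟨g', Finset.mem_filter.mpr ⟨hG'sub hg', ?_⟩, rfl⟩
      exact (hG' g' hg' g hg (hq2'.trans hq2.symm)).1

lemma mean_neg_log_kern {D : Finset (ℤ × ℤ)} {μ : ℤ × ℤ → ℝ} (hμsum : ∑ v ∈ D, μ v = 1)
    (ρ : ℝ) (sh : ℤ × ℤ → ℝ) (pr : ℤ × ℤ → ℤ) (hρ : 0 < ρ)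
    (hsum : ∑ v ∈ D, μ v * ((pr v : ℝ) - sh v) ^ 2 = ρ) :
    ∑ v : D, μ v * -log (kern ρ (sh v) (pr v)) = log (normC ρ) + 1 / 2 := by
  rw [Finset.sum_coe_sort D (fun v => μ v * -log (kern ρ (sh v) (pr v)))]
  have : ∀ v ∈ D, μ v * -log (kern ρ (sh v) (pr v)) =
      1 / (2 * ρ) * (μ v * ((pr v : ℝ) - sh v) ^ 2) + log (normC ρ) * μ v := by
    intro v _; rw [neg_log_kern]; ring
  rw [Finset.sum_congr rfl this, Finset.sum_add_distrib, ← Finset.mul_sum, ← Finset.mul_sum,
    hsum, hμsum]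
  field_simp
  ring

/-- The combinatorial output: many integer pairs `(x, t)` with few values of each `x - j t`. -/
lemma exists_pairs {D : Finset (ℤ × ℤ)} {μ : ℤ × ℤ → ℝ} {sA sB sC sX sF κ r a₁ a₂ a₃ : ℝ}
    (hsA : 0 < sA) (hsB : 0 < sB) (hsC : 0 < sC) (hsF : 0 < sF) (hFX' : sF ≤ sX)
    (hμpos : ∀ v ∈ D, 0 < μ v) (hμsum : ∑ v ∈ D, μ v = 1)
    (h1 : ∑ v ∈ D, μ v * (v.1 : ℝ) ^ 2 = sA) (h2 : ∑ v ∈ D, μ v * (v.2 : ℝ) ^ 2 = sC)
    (h3 : ∑ v ∈ D, μ v * ((v.1 + v.2 : ℤ) : ℝ) ^ 2 = sB)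
    (h4 : ∑ v ∈ D, μ v * ((3 * v.1 - v.2 : ℤ) : ℝ) ^ 2 = sX)
    (h5 : ∑ v ∈ D, μ v * ((v.1 : ℝ) - κ * ((3 * v.1 - v.2 : ℤ) : ℝ)) ^ 2 = sF)
    (hr0 : 0 < r) (hr1 : r < 1) (ha1 : 0 ≤ a₁) (ha2 : 0 ≤ a₂) (ha3 : 0 ≤ a₃)
    (hasum : a₁ + a₂ + a₃ = 1)
    (hineq : a₁ * (log (normC sA) + 1 / 2) + a₂ * (log (normC sB) + 1 / 2) +
      a₃ * (log (normC sC) + 1 / 2) + r * (log (normC sX) + 1 / 2) +
      (1 - r) * (log (normC sF) + 1 / 2) < ∑ v ∈ D, μ v * -log (μ v))
    {C : ℝ} (hC : 0 ≤ C) :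
    ∃ (P : Finset (ℤ × ℤ)) (S N₁ N₂ N₃ F : ℕ), 1 ≤ S ∧ 1 ≤ F ∧
      (∀ p ∈ P, |p.1| ≤ S ∧ |p.2| ≤ S) ∧
      (P.image (fun p => p.1 - 1 * p.2)).card ≤ N₁ ∧
      (P.image (fun p => p.1 - 2 * p.2)).card ≤ N₂ ∧
      (P.image (fun p => p.1 - 3 * p.2)).card ≤ N₃ ∧
      (∀ x, (P.filter (fun p => p.1 = x)).card ≤ F) ∧
      C * ((N₁ : ℝ) ^ a₁ * (N₂ : ℝ) ^ a₂ * (N₃ : ℝ) ^ a₃) * (S : ℝ) ^ r * (F : ℝ) ^ (1 - r)
        < P.card := by
  classical
  have hsX : 0 < sX := hsF.trans_le hFX'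
  set MA := log (normC sA) + 1 / 2 with hMA
  set MB := log (normC sB) + 1 / 2 with hMB
  set MC := log (normC sC) + 1 / 2 with hMC
  set M := a₁ * MA + a₂ * MB + a₃ * MC with hM
  set Xh := log (normC sX) + 1 / 2 with hXh
  set Fh := log (normC sF) + 1 / 2 with hFh
  set Pe := ∑ v ∈ D, μ v * -log (μ v) with hPe
  have hFX : Fh ≤ Xh := by
    have : normC sF ≤ normC sX := by
      unfold normC
      have := sqrt_le_sqrt (show 2 * π * sF ≤ 2 * π * sX by
        apply mul_le_mul_of_nonneg_left hFX' (by positivity))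
      linarith
    have := log_le_log (normC_pos _) this
    rw [hFh, hXh]; linarith
  set γ := Pe - (M + r * Xh + (1 - r) * Fh) with hγ
  have hγpos : 0 < γ := by rw [hγ]; linarith
  set η := γ / 6 with hη
  have hηpos : 0 < η := by positivity
  -- the six statistics
  set fA : D → ℝ := fun v => -log (kern sA 0 (v : ℤ × ℤ).1) with hfA
  set fC : D → ℝ := fun v => -log (kern sC 0 (v : ℤ × ℤ).2) with hfC
  set fB : D → ℝ := fun v => -log (kern sB 0 ((v : ℤ × ℤ).1 + (v : ℤ × ℤ).2)) with hfB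
  set fX : D → ℝ := fun v => -log (kern sX 0 (3 * (v : ℤ × ℤ).1 - (v : ℤ × ℤ).2)) with hfX
  set fF : D → ℝ := fun v => -log (kern sF
    (κ * ((3 * (v : ℤ × ℤ).1 - (v : ℤ × ℤ).2 : ℤ) : ℝ)) (v : ℤ × ℤ).1) with hfF
  set fP : D → ℝ := fun v => log (μ v) with hfP
  set p : D → ℝ := fun v => μ v with hp
  have hp0 : ∀ v : D, 0 ≤ p v := fun v => (hμpos _ v.2).le
  have tr : ∀ g : ℤ × ℤ → ℝ, ∑ v : D, g v = ∑ v ∈ D, g v := fun g => Finset.sum_coe_sort D g
  have hp1 : ∑ v, p v = 1 := (tr μ).trans hμsum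
  have hmean := mean_neg_log_kern hμsum
  have eA : ∑ v, p v * fA v = MA := hmean sA (fun _ => 0) (fun v => v.1) hsA (by simpa using h1)
  have eC : ∑ v, p v * fC v = MC := hmean sC (fun _ => 0) (fun v => v.2) hsC (by simpa using h2)
  have eB : ∑ v, p v * fB v = MB :=
    hmean sB (fun _ => 0) (fun v => v.1 + v.2) hsB (by simpa using h3)
  have eX : ∑ v, p v * fX v = Xh :=
    hmean sX (fun _ => 0) (fun v => 3 * v.1 - v.2) hsX (by simpa using h4)
  have eF : ∑ v, p v * fF v = Fh :=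
    hmean sF (fun v => κ * ((3 * v.1 - v.2 : ℤ) : ℝ)) (fun v => v.1)
      hsF h5
  have eP : ∑ v, p v * fP v = -Pe := by
    refine (tr (fun v => μ v * log (μ v))).trans ?_
    rw [hPe, ← Finset.sum_neg_distrib]
    exact Finset.sum_congr rfl fun v _ => by ring
  set fs : Fin 6 → D → ℝ := ![fA, fC, fB, fX, fF, fP] with hfs
  set Vtot := ∑ j, ∑ v, p v * (fs j v - ∑ l, p l * fs j l) ^ 2 with hVtot
  -- choice of the dimension
  obtain ⟨B, hB⟩ : ∃ B : ℕ, B = D.sup (fun v => (3 * |v.1| + 3 * |v.2|).toNat) + 1 := ⟨_, rfl⟩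
  set c0 : ℝ := 16 * C * (4 * B) + 1 with hc0
  obtain ⟨k, hk⟩ := exists_nat_gt (max (2 * Vtot / η ^ 2) (max 1 (2 * c0 / (γ / 2) ^ 2)))
  simp only [max_lt_iff] at hk
  obtain ⟨hk1, hk2, hk3⟩ := hk
  have hkpos : 0 < k := by
    have : (0 : ℝ) < k := by linarith
    exact_mod_cast this
  set G := (univ : Finset (Fin k → D)).filter
    (fun v => ∀ j, ∑ i, fs j (v i) ≤ k * ((∑ l, p l * fs j l) + η)) with hG
  have hGw : 1 / 2 ≤ ∑ v ∈ G, pw p v := typical_weight hkpos p hp0 hp1 fs hηpos hk1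
  have hGcard : exp (k * (Pe - η)) / 2 ≤ G.card := by
    have : ∑ v ∈ G, pw p v ≤ G.card * exp (-(k * (Pe - η))) := by
      rw [← nsmul_eq_mul]
      apply Finset.sum_le_card_nsmul
      intro v hv
      have := (Finset.mem_filter.mp hv).2 5
      simp only [hfs, Matrix.cons_val] at this
      rw [eP] at this
      unfold pw
      rw [← exp_log (Finset.prod_pos fun i _ => hμpos _ (v i).2), log_prod
        (fun i _ => (hμpos _ (v i).2).ne')]
      apply exp_le_exp.mpr
      simp only [hfP] at this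
      linarith
    have h' := hGw.trans this
    rw [exp_neg, ← div_eq_mul_inv, le_div_iff₀ (exp_pos _)] at h'
    linarith
  -- the coordinate maps
  set mA : (Fin k → D) → Fin k → ℤ := fun v i => (v i : ℤ × ℤ).1 with hmA
  set mC : (Fin k → D) → Fin k → ℤ := fun v i => (v i : ℤ × ℤ).2 with hmC
  set mB : (Fin k → D) → Fin k → ℤ := fun v i => (v i : ℤ × ℤ).1 + (v i : ℤ × ℤ).2 with hmB
  set mX : (Fin k → D) → Fin k → ℤ := fun v i => 3 * (v i : ℤ × ℤ).1 - (v i : ℤ × ℤ).2 with hmX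
  set mT : (Fin k → D) → Fin k → ℤ := fun v i => (v i : ℤ × ℤ).1 - (v i : ℤ × ℤ).2 with hmT
  have hN : ∀ (j : Fin 6) (ρ : ℝ) (m : (Fin k → D) → Fin k → ℤ), 0 < ρ →
      (∀ v i, fs j (v i) = -log (kern ρ 0 (m v i))) →
      ((G.image m).card : ℝ) ≤ exp (k * ((∑ l, p l * fs j l) + η)) := by
    intro j ρ m hρ hm
    refine card_le_exp (fun _ => kern ρ 0) (fun _ n => kern_pos _ _ n)
      (fun _ S => sum_kern_le_one hρ 0 S) _ fun y hy => ?_
    obtain ⟨v, hv, rfl⟩ := Finset.mem_image.mp hy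
    have := (Finset.mem_filter.mp hv).2 j
    simpa only [hm] using this
  have nA : ((G.image mA).card : ℝ) ≤ exp (k * (MA + η)) := by
    have := hN 0 sA mA hsA (fun v i => rfl)
    simpa only [hfs, Matrix.cons_val, eA] using this
  have nC : ((G.image mC).card : ℝ) ≤ exp (k * (MC + η)) := by
    have := hN 1 sC mC hsC (fun v i => rfl)
    simpa only [hfs, Matrix.cons_val, eC] using this
  have nB : ((G.image mB).card : ℝ) ≤ exp (k * (MB + η)) := by
    have := hN 2 sB mB hsB (fun v i => rfl)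
    simpa only [hfs, Matrix.cons_val, eB] using this
  have nX : ((G.image mX).card : ℝ) ≤ exp (k * (Xh + η)) := by
    have := hN 3 sX mX hsX (fun v i => rfl)
    simpa only [hfs, Matrix.cons_val, eX] using this
  set F : ℕ := (G.sup fun g => (G.filter (fun g' => mX g' = mX g)).card) ⊔ 1 with hFdef
  have hF : ∀ g ∈ G, (G.filter (fun g' => mX g' = mX g)).card ≤ F := fun g hg =>
    le_trans (Finset.le_sup (f := fun g => (G.filter (fun g' => mX g' = mX g)).card) hg)
      le_sup_left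
  have hGne : G.Nonempty := by
    rcases G.eq_empty_or_nonempty with h | h
    · rw [h] at hGw; simp at hGw; norm_num at hGw
    · exact h
  have nF : (F : ℝ) ≤ exp (k * (Fh + η)) := by
    obtain ⟨g, hg, he⟩ := Finset.exists_mem_eq_sup G hGne
      (fun g => (G.filter (fun g' => mX g' = mX g)).card)
    have hone : 1 ≤ (G.filter (fun g' => mX g' = mX g)).card :=
      Finset.card_pos.mpr ⟨g, Finset.mem_filter.mpr ⟨hg, rfl⟩⟩
    have hFe : F = (G.filter (fun g' => mX g' = mX g)).card := by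
      rw [hFdef, he]; exact sup_of_le_left hone
    rw [hFe]
    have hinj : (G.filter (fun g' => mX g' = mX g)).card =
        ((G.filter (fun g' => mX g' = mX g)).image mA).card := by
      rw [Finset.card_image_of_injOn]
      intro v hv v' hv' ha
      simp only [Finset.coe_filter, Set.mem_ofPred_eq] at hv hv'
      funext i
      have h1 := congrFun (hv.2.trans hv'.2.symm) i
      have h2 := congrFun ha i
      simp only [hmX, hmA] at h1 h2
      apply Subtype.ext
      ext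
      · exact h2
      · omega
    rw [hinj]
    refine card_le_exp (fun i => kern sF (κ * ((mX g i : ℤ) : ℝ)))
      (fun _ n => kern_pos _ _ n) (fun _ S => sum_kern_le_one hsF _ S) _
      fun y hy => ?_
    obtain ⟨v, hv, rfl⟩ := Finset.mem_image.mp hy
    obtain ⟨hvG, hvX⟩ := Finset.mem_filter.mp hv
    have := (Finset.mem_filter.mp hvG).2 4
    simp only [hfs, Matrix.cons_val, eF] at this
    rw [← hvX]
    simpa only [hfF, hmX, hmA] using this
  have hF1 : 1 ≤ F := le_sup_right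
  have hBb : ∀ v ∈ D, 3 * |v.1| + 3 * |v.2| ≤ (B : ℤ) := by
    intro v hv
    have := Finset.le_sup (f := fun v : ℤ × ℤ => (3 * |v.1| + 3 * |v.2|).toNat) hv
    omega
  have hBpos : 1 ≤ B := by omega
  obtain ⟨P, hPc, hS1, hPb, hP1, hP2, hP3, hPf⟩ := project_pairs hkpos hBpos hBb G
    mA mB mC mX mT hmA hmC hmB hmX hmT hF hF1
  clear_value F G mA mB mC mX mT
  refine ⟨P, _, _, _, _, F, hS1, hF1, hPb, hP1, hP2, hP3, hPf, ?_⟩
  have hN' := weighted_prod_le ha1 ha2 ha3 hasum (Nat.cast_nonneg _) (Nat.cast_nonneg _)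
    (Nat.cast_nonneg _) nA nB nC
  have hk1' : (1 : ℝ) ≤ k := by exact_mod_cast hkpos
  have hB1' : (1 : ℝ) ≤ B := by exact_mod_cast hBpos
  push_cast
  exact final_estimate hC hr0 hr1 hk1' hB1' hk3 hc0 hη hγ hγpos hFX
    (mul_nonneg (mul_nonneg (rpow_nonneg (Nat.cast_nonneg _) _) (rpow_nonneg (Nat.cast_nonneg _) _))
      (rpow_nonneg (Nat.cast_nonneg _) _)) hN'
    (Nat.cast_nonneg _) nX (Nat.cast_nonneg _) nF rfl (by exact_mod_cast hPc) hGcard

end Vale.Agent.P141
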