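import Vale.Agent.P141.Basic
import Vale.Agent.P141.Counting

/-! From finite configurations of integer pairs to the trilinear Hilbert transform. -/

namespace Vale.Agent.P141

open MeasureTheory Filter Finset Real
open scoped ENNReal NNReal SchwartzMap Topology

lemma exists_bump_sum (A : Finset ℤ) :
    ∃ f : 𝓢(ℝ, ℂ), ∃ φ : ℝ → ℝ, Continuous φ ∧ (∀ y, f y = (φ y : ℂ)) ∧ (∀ y, 0 ≤ φ y) ∧
      (∀ y, φ y ≤ 1) ∧ (∀ a ∈ A, ∀ y, |y - (a : ℝ)| ≤ 1 → φ y = 1) ∧
      (∀ y, φ y ≠ 0 → ∃ a ∈ A, |y - (a : ℝ)| ≤ 2) := by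
  set b : ℤ → ℝ → ℝ := fun a => (⟨1, 2, one_pos, one_lt_two⟩ : ContDiffBump (a : ℝ)) with hb
  set φ : ℝ → ℝ := fun y => smoothTransition (∑ a ∈ A, b a y) with hφ
  have hsupp : ∀ y, φ y ≠ 0 → ∃ a ∈ A, |y - (a : ℝ)| ≤ 2 := by
    intro y hy
    by_contra hcon
    push Not at hcon
    apply hy
    apply smoothTransition.zero_of_nonpos
    refine le_of_eq (Finset.sum_eq_zero fun a ha => ?_)
    apply ContDiffBump.zero_of_le_dist
    rw [Real.dist_eq]
    exact (hcon a ha).le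
  have hcd : ContDiff ℝ (⊤ : ℕ∞) φ :=
    smoothTransition.contDiff.comp (ContDiff.sum fun a _ => ContDiffBump.contDiff _)
  have hcs : HasCompactSupport φ := by
    refine HasCompactSupport.intro (K := ⋃ a ∈ A, Metric.closedBall ((a : ℤ) : ℝ) 2)
      (A.finite_toSet.isCompact_biUnion fun a _ => isCompact_closedBall _ _) fun y hy => ?_
    by_contra h
    obtain ⟨a, ha, hd⟩ := hsupp y h
    exact hy (Set.mem_biUnion ha (by rwa [Metric.mem_closedBall, Real.dist_eq]))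
  refine ⟨(hcs.comp_left Complex.ofReal_zero : HasCompactSupport (Complex.ofReal ∘ φ)).toSchwartzMap
    (Complex.ofRealCLM.contDiff.comp hcd), φ, hcd.continuous, fun y => rfl,
    fun y => smoothTransition.nonneg _, fun y => smoothTransition.le_one _, ?_, hsupp⟩
  intro a ha y hy
  apply smoothTransition.one_of_one_le
  have h1 : b a y = 1 := ContDiffBump.one_of_mem_closedBall _
    (by rwa [Metric.mem_closedBall, Real.dist_eq])
  rw [← h1]
  exact Finset.single_le_sum (f := fun a => b a y) (fun a _ => ContDiffBump.nonneg _) ha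

lemma eLpNorm_bump_le {f : 𝓢(ℝ, ℂ)} {φ : ℝ → ℝ} {A : Finset ℤ} {N : ℕ} (hN : A.card ≤ N)
    (hf : ∀ y, f y = (φ y : ℂ)) (h0 : ∀ y, 0 ≤ φ y) (h1 : ∀ y, φ y ≤ 1)
    (hs : ∀ y, φ y ≠ 0 → ∃ a ∈ A, |y - (a : ℝ)| ≤ 2) (p : ℝ≥0∞) :
    eLpNorm (⇑f) p volume ≤ (4 * (N : ℝ≥0∞)) ^ (1 / p.toReal) := by
  set K : Set ℝ := ⋃ a ∈ A, Metric.closedBall ((a : ℤ) : ℝ) 2 with hK
  calc eLpNorm (⇑f) p volume ≤ eLpNorm (K.indicator fun _ => (1 : ℝ)) p volume := by
        refine eLpNorm_mono fun y => ?_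
        rw [hf, Complex.norm_real, Real.norm_of_nonneg (h0 y)]
        by_cases hy : y ∈ K
        · rw [Set.indicator_of_mem hy]; simpa using h1 y
        · rw [Set.indicator_of_notMem hy, norm_zero]
          apply le_of_eq
          by_contra h
          obtain ⟨a, ha, hd⟩ := hs y h
          exact hy (Set.mem_biUnion ha (by rwa [Metric.mem_closedBall, Real.dist_eq]))
    _ ≤ ‖(1 : ℝ)‖ₑ * volume K ^ (1 / p.toReal) := eLpNorm_indicator_const_le _ _
    _ ≤ _ := by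
        rw [enorm_one, one_mul]
        apply ENNReal.rpow_le_rpow _ (by positivity)
        calc volume K ≤ ∑ a ∈ A, volume (Metric.closedBall ((a : ℤ) : ℝ) 2) :=
              measure_biUnion_finset_le _ _
          _ = A.card * 4 := by
              simp only [Real.volume_closedBall, Finset.sum_const, nsmul_eq_mul]
              norm_num
          _ ≤ _ := by rw [mul_comm (4 : ℝ≥0∞)]; gcongr

/-- The main construction. -/
lemma exists_large {r : ℝ} (hr0 : 0 < r) (hr1 : r < 1) {P : Finset (ℤ × ℤ)} {S N₁ N₂ N₃ F : ℕ}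
    (hS : 1 ≤ S) (hF : 1 ≤ F)
    (hb : ∀ q ∈ P, |q.1| ≤ S ∧ |q.2| ≤ S)
    (hA₁ : (P.image (fun q => q.1 - 1 * q.2)).card ≤ N₁)
    (hA₂ : (P.image (fun q => q.1 - 2 * q.2)).card ≤ N₂)
    (hA₃ : (P.image (fun q => q.1 - 3 * q.2)).card ≤ N₃)
    (hfib : ∀ x, (P.filter (fun q => q.1 = x)).card ≤ F) :
    ∃ f₁ f₂ f₃ : 𝓢(ℝ, ℂ), ∃ g : ℝ → ℂ, IsTHT f₁ f₂ f₃ g ∧
      (∀ p, eLpNorm (⇑f₁) p volume ≤ (4 * (N₁ : ℝ≥0∞)) ^ (1 / p.toReal)) ∧
      (∀ p, eLpNorm (⇑f₂) p volume ≤ (4 * (N₂ : ℝ≥0∞)) ^ (1 / p.toReal)) ∧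
      (∀ p, eLpNorm (⇑f₃) p volume ≤ (4 * (N₃ : ℝ≥0∞)) ^ (1 / p.toReal)) ∧
      ENNReal.ofReal ((P.card : ℝ) * (F : ℝ) ^ (r - 1) / (2 * (40 * S) ^ r))
        ≤ ∫⁻ x, ‖g x‖ₑ ^ r := by
  classical
  set d : ℤ := 6 * S + 4 with hd
  set A : ℤ → Finset ℤ := fun j => P.image (fun q => q.1 - j * (q.2 + d)) with hAdef
  have hAc : ∀ (j : ℤ) (N : ℕ), (P.image (fun q => q.1 - j * q.2)).card ≤ N → (A j).card ≤ N := by
    intro j N hj
    refine le_trans ((Finset.card_le_card ?_).trans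
      (Finset.card_image_le (f := fun z => z - j * d))) hj
    intro z hz
    obtain ⟨q, hq, rfl⟩ := Finset.mem_image.mp hz
    exact Finset.mem_image.mpr ⟨_, Finset.mem_image_of_mem _ hq, by ring⟩
  obtain ⟨f₁, φ₁, c₁, e₁, p₁, l₁, o₁, s₁⟩ := exists_bump_sum (A 1)
  obtain ⟨f₂, φ₂, c₂, e₂, p₂, l₂, o₂, s₂⟩ := exists_bump_sum (A 2)
  obtain ⟨f₃, φ₃, c₃, e₃, p₃, l₃, o₃, s₃⟩ := exists_bump_sum (A 3)
  set h : ℝ → ℝ → ℝ := fun x t => φ₁ (x - t) * φ₂ (x - 2 * t) * φ₃ (x - 3 * t) with hh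
  -- the support in `t`
  have hsupp : ∀ x t, h x t ≠ 0 → 1 ≤ t ∧ t ≤ 20 * (S : ℝ) := by
    intro x t ht
    obtain ⟨a, ha, ha'⟩ := s₁ _ (left_ne_zero_of_mul (left_ne_zero_of_mul ht))
    obtain ⟨c, hc, hc'⟩ := s₃ _ (right_ne_zero_of_mul ht)
    obtain ⟨q, hq, rfl⟩ := Finset.mem_image.mp ha
    obtain ⟨q', hq', rfl⟩ := Finset.mem_image.mp hc
    obtain ⟨b1, b2⟩ := hb q hq
    obtain ⟨b3, b4⟩ := hb q' hq'
    rw [abs_le] at b1 b2 b3 b4 ha' hc'
    have lo : 2 * (d : ℤ) - 6 * S ≤ (q.1 - 1 * (q.2 + d)) - (q'.1 - 3 * (q'.2 + d)) := by omega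
    have up : (q.1 - 1 * (q.2 + d)) - (q'.1 - 3 * (q'.2 + d)) ≤ 2 * (d : ℤ) + 6 * S := by omega
    have lo' : ((2 * (d : ℤ) - 6 * S : ℤ) : ℝ) ≤
        (((q.1 - 1 * (q.2 + d)) - (q'.1 - 3 * (q'.2 + d)) : ℤ) : ℝ) := by exact_mod_cast lo
    have up' : (((q.1 - 1 * (q.2 + d)) - (q'.1 - 3 * (q'.2 + d)) : ℤ) : ℝ) ≤
        ((2 * (d : ℤ) + 6 * S : ℤ) : ℝ) := by exact_mod_cast up
    simp only [hd] at lo' up' ha' hc'
    push_cast at lo' up' ha' hc'
    have : (1 : ℝ) ≤ S := by exact_mod_cast hS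
    constructor <;> linarith
  set G : ℝ → ℝ → ℝ := fun x t => h x t / max t 1 with hG
  have hGc : ∀ x, Continuous (G x) := fun x => by
    refine Continuous.div ?_ (continuous_id.max continuous_const)
      fun t => (lt_of_lt_of_le one_pos (le_max_right _ _)).ne'
    exact ((c₁.comp (by fun_prop)).mul (c₂.comp (by fun_prop))).mul (c₃.comp (by fun_prop))
  have hG0 : ∀ x t, 0 ≤ G x t := fun x t => div_nonneg
    (mul_nonneg (mul_nonneg (p₁ _) (p₂ _)) (p₃ _)) (le_trans zero_le_one (le_max_right _ _))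
  have hGz : ∀ x t, ¬ (1 ≤ t ∧ t ≤ 20 * (S : ℝ)) → G x t = 0 := by
    intro x t ht
    by_contra hne
    exact ht (hsupp x t fun e => hne (by simp [hG, e]))
  have hGi : ∀ x, Integrable (G x) := fun x =>
    (hGc x).integrable_of_hasCompactSupport (HasCompactSupport.intro isCompact_Icc
      fun t ht => hGz x t fun hh' => ht ⟨hh'.1, hh'.2⟩)
  refine ⟨f₁, f₂, f₃, fun x => ((∫ t, G x t : ℝ) : ℂ), ?_,
    eLpNorm_bump_le (hAc 1 _ hA₁) e₁ p₁ l₁ s₁, eLpNorm_bump_le (hAc 2 _ hA₂) e₂ p₂ l₂ s₂,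
    eLpNorm_bump_le (hAc 3 _ hA₃) e₃ p₃ l₃ s₃, ?_⟩
  · -- existence of the limit
    intro x
    apply Tendsto.congr' _ tendsto_const_nhds
    have he : ∀ᶠ q : ℝ × ℝ in 𝓝[>] (0 : ℝ) ×ˢ atTop,
        (0 < q.1 ∧ q.1 < 1) ∧ 20 * (S : ℝ) < q.2 :=
      ((eventually_mem_nhdsWithin.and
        ((eventually_lt_nhds one_pos).filter_mono nhdsWithin_le_nhds)).prod_mk
        (eventually_gt_atTop _))
    filter_upwards [he] with q hq
    obtain ⟨⟨-, hq1⟩, hq2⟩ := hq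
    unfold truncTHT
    have e : ∀ t : ℝ, f₁ (x - t) * f₂ (x - 2 * t) * f₃ (x - 3 * t) / (t : ℂ) = (G x t : ℂ) := by
      intro t
      rw [e₁, e₂, e₃]
      by_cases ht : 1 ≤ t ∧ t ≤ 20 * (S : ℝ)
      · simp only [hG, hh, max_eq_left ht.1]; push_cast; ring
      · have h0 : h x t = 0 := by
          by_contra hne
          exact ht (hsupp x t hne)
        rw [hGz x t ht]
        simp only [hh] at h0
        rw [← Complex.ofReal_mul, ← Complex.ofReal_mul, h0]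
        simp
    simp only [e]
    rw [setIntegral_eq_integral_of_forall_compl_eq_zero, integral_complex_ofReal]
    intro t ht
    rw [hGz x t fun h' => ht ⟨?_, ?_⟩, Complex.ofReal_zero]
    · rw [abs_of_pos (by linarith [h'.1])]; linarith [h'.1]
    · rw [abs_of_pos (by linarith [h'.1])]; linarith [h'.2]
  · -- the lower bound
    set X := P.image Prod.fst with hX
    set m : ℤ → ℕ := fun a => (P.filter (fun q => q.1 = a)).card with hm
    set J : ℤ → Set ℝ := fun a => Set.Icc ((a : ℝ) - 1 / 4) ((a : ℝ) + 1 / 4) with hJ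
    have hJd : ∀ a a' : ℤ, a ≠ a' → Disjoint (J a) (J a') := by
      intro a a' hne
      rw [Set.disjoint_left]
      intro t ht ht'
      simp only [hJ, Set.mem_Icc] at ht ht'
      apply hne
      have u1 : (a : ℝ) < a' + 1 := by linarith
      have u2 : (a' : ℝ) < a + 1 := by linarith
      have u1' : a < a' + 1 := by exact_mod_cast u1
      have u2' : a' < a + 1 := by exact_mod_cast u2
      omega
    have hS' : (1 : ℝ) ≤ S := by exact_mod_cast hS
    have hlow : ∀ a : ℤ, ∀ x ∈ J a, (m a : ℝ) / (40 * S) ≤ ∫ t, G x t := by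
      intro a x hx
      set Ta := (P.filter (fun q => q.1 = a)).image (fun q => q.2 + d) with hTa
      have hc : Ta.card = m a := by
        rw [hTa, hm, Finset.card_image_of_injOn]
        intro q hq q' hq' he
        simp only [Finset.coe_filter, Set.mem_ofPred_eq] at hq hq'
        have he' : q.2 + d = q'.2 + d := he
        ext <;> omega
      have hdisj : (Ta : Set ℤ).PairwiseDisjoint J := fun u _ u' _ hne => hJd u u' hne
      have hone : ∀ u ∈ Ta, 1 / (40 * (S : ℝ)) ≤ ∫ t in J u, G x t := by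
        intro u hu
        obtain ⟨q, hq, rfl⟩ := Finset.mem_image.mp hu
        obtain ⟨hqP, rfl⟩ := Finset.mem_filter.mp hq
        have hmem : ∀ j : ℤ, q.1 - j * (q.2 + d) ∈ A j := fun j =>
          Finset.mem_image_of_mem _ hqP
        have hle : ∀ t ∈ J (q.2 + d), 1 / (20 * (S : ℝ)) ≤ G x t := by
          intro t ht
          simp only [hJ, Set.mem_Icc] at hx ht
          push_cast at ht
          have v1 : φ₁ (x - t) = 1 := o₁ _ (hmem 1) _ (by
            rw [abs_le]; push_cast; constructor <;> linarith)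
          have v2 : φ₂ (x - 2 * t) = 1 := o₂ _ (hmem 2) _ (by
            rw [abs_le]; push_cast; constructor <;> linarith)
          have v3 : φ₃ (x - 3 * t) = 1 := o₃ _ (hmem 3) _ (by
            rw [abs_le]; push_cast; constructor <;> linarith)
          have hh1 : h x t = 1 := by simp [hh, v1, v2, v3]
          obtain ⟨t1, t2⟩ := hsupp x t (by rw [hh1]; exact one_ne_zero)
          simp only [hG, hh1, max_eq_left t1]
          exact one_div_le_one_div_of_le (by linarith) t2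
        have := setIntegral_mono_on (s := J (q.2 + d)) (μ := volume)
          (integrableOn_const (C := 1 / (20 * (S : ℝ))) (by simp [hJ]))
          (hGi x).integrableOn measurableSet_Icc hle
        refine le_trans (le_of_eq ?_) this
        rw [setIntegral_const, hJ, Real.volume_real_Icc_of_le (by linarith), smul_eq_mul]
        field_simp
        ring
      calc (m a : ℝ) / (40 * S) = ∑ _u ∈ Ta, 1 / (40 * (S : ℝ)) := by
            rw [Finset.sum_const, hc, nsmul_eq_mul]; ring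
        _ ≤ ∑ u ∈ Ta, ∫ t in J u, G x t := Finset.sum_le_sum hone
        _ = ∫ t in ⋃ u ∈ Ta, J u, G x t := (integral_biUnion_finset Ta
            (fun u _ => measurableSet_Icc) hdisj (fun u _ => (hGi x).integrableOn)).symm
        _ ≤ _ := setIntegral_le_integral (hGi x) (Eventually.of_forall (hG0 x))
    calc ENNReal.ofReal ((P.card : ℝ) * (F : ℝ) ^ (r - 1) / (2 * (40 * S) ^ r))
        ≤ ENNReal.ofReal (∑ a ∈ X, ((m a : ℝ) / (40 * S)) ^ r * (1 / 2)) := by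
          apply ENNReal.ofReal_le_ofReal
          have hPc : (P.card : ℝ) = ∑ a ∈ X, (m a : ℝ) := by
            rw [hX, hm]
            exact_mod_cast Finset.card_eq_sum_card_fiberwise
              (fun q hq => Finset.mem_image_of_mem Prod.fst hq)
          rw [hPc, Finset.sum_mul, Finset.sum_div]
          apply Finset.sum_le_sum
          intro a ha
          have hm1 : 1 ≤ m a := by
            obtain ⟨q, hq, rfl⟩ := Finset.mem_image.mp ha
            exact Finset.card_pos.mpr ⟨q, Finset.mem_filter.mpr ⟨hq, rfl⟩⟩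
          have hmpos : (0 : ℝ) < m a := by exact_mod_cast hm1
          have hmF : (m a : ℝ) ≤ F := by exact_mod_cast hfib a
          have hp : (m a : ℝ) * (F : ℝ) ^ (r - 1) ≤ (m a : ℝ) ^ r := by
            calc (m a : ℝ) * (F : ℝ) ^ (r - 1) ≤ (m a : ℝ) * (m a : ℝ) ^ (r - 1) :=
                  mul_le_mul_of_nonneg_left
                    (rpow_le_rpow_of_nonpos hmpos hmF (by linarith)) hmpos.le
              _ = _ := by rw [← rpow_one_add' hmpos.le (by linarith)]; ring_nf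
          rw [div_rpow hmpos.le (by positivity)]
          calc (m a : ℝ) * (F : ℝ) ^ (r - 1) / (2 * (40 * (S : ℝ)) ^ r)
              ≤ (m a : ℝ) ^ r / (2 * (40 * (S : ℝ)) ^ r) := by gcongr
            _ = _ := by ring
      _ = ∑ a ∈ X, ENNReal.ofReal (((m a : ℝ) / (40 * S)) ^ r) * volume (J a) := by
          rw [ENNReal.ofReal_sum_of_nonneg (fun a _ => by positivity)]
          refine Finset.sum_congr rfl fun a _ => ?_
          rw [ENNReal.ofReal_mul (by positivity), hJ, Real.volume_Icc]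
          congr 2
          ring
      _ = ∑ a ∈ X, ∫⁻ _x in J a, ENNReal.ofReal (((m a : ℝ) / (40 * S)) ^ r) :=
          Finset.sum_congr rfl fun a _ => (setLIntegral_const _ _).symm
      _ ≤ ∑ a ∈ X, ∫⁻ x in J a, ‖((∫ t, G x t : ℝ) : ℂ)‖ₑ ^ r := by
          apply Finset.sum_le_sum
          intro a _
          apply setLIntegral_mono' measurableSet_Icc
          intro x hx
          have hnn : 0 ≤ ∫ t, G x t := integral_nonneg (hG0 x)
          rw [← ofReal_norm_eq_enorm, Complex.norm_real, Real.norm_of_nonneg hnn,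
            ENNReal.ofReal_rpow_of_nonneg hnn hr0.le]
          exact ENNReal.ofReal_le_ofReal (rpow_le_rpow (by positivity) (hlow a x hx) hr0.le)
      _ = ∫⁻ x in ⋃ a ∈ X, J a, ‖((∫ t, G x t : ℝ) : ℂ)‖ₑ ^ r :=
          (lintegral_biUnion_finset (fun a _ a' _ hne => hJd a a' hne)
            (fun a _ => measurableSet_Icc) _).symm
      _ ≤ _ := setLIntegral_le_lintegral _ _

theorem not_boundedAt {p₁ p₂ p₃ : ℝ≥0∞} {r : ℝ} (hr0 : 0 < r)
    (hr : r < Real.log 13 / Real.log (676 / 3) ∨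
      r * Real.log 100 + r / p₂.toReal * Real.log 2 < Real.log 10)
    (hH : p₁⁻¹ + p₂⁻¹ + p₃⁻¹ = (ENNReal.ofReal r)⁻¹) : ¬ THTBoundedAt p₁ p₂ p₃ r := by
  rintro ⟨C, hC⟩
  have hrne : ENNReal.ofReal r ≠ 0 := by simpa using hr0
  have hfin : p₁⁻¹ + p₂⁻¹ + p₃⁻¹ ≠ ∞ := by rw [hH]; exact ENNReal.inv_ne_top.mpr hrne
  simp only [ne_eq, ENNReal.add_eq_top, not_or] at hfin
  have hsum : 1 / p₁.toReal + 1 / p₂.toReal + 1 / p₃.toReal = 1 / r := by
    have := congrArg ENNReal.toReal hH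
    rw [ENNReal.toReal_add (ENNReal.add_ne_top.mpr ⟨hfin.1.1, hfin.1.2⟩) hfin.2,
      ENNReal.toReal_add hfin.1.1 hfin.1.2] at this
    simpa [ENNReal.toReal_inv, ENNReal.toReal_ofReal hr0.le] using this
  obtain ⟨a₁, ha1e⟩ : ∃ a, a = r / p₁.toReal := ⟨_, rfl⟩
  obtain ⟨a₂, ha2e⟩ : ∃ a, a = r / p₂.toReal := ⟨_, rfl⟩
  obtain ⟨a₃, ha3e⟩ : ∃ a, a = r / p₃.toReal := ⟨_, rfl⟩
  have ha1 : 0 ≤ a₁ := by rw [ha1e]; exact div_nonneg hr0.le ENNReal.toReal_nonneg
  have ha2 : 0 ≤ a₂ := by rw [ha2e]; exact div_nonneg hr0.le ENNReal.toReal_nonneg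
  have ha3 : 0 ≤ a₃ := by rw [ha3e]; exact div_nonneg hr0.le ENNReal.toReal_nonneg
  have hasum : a₁ + a₂ + a₃ = 1 := by
    rw [ha1e, ha2e, ha3e]
    have : r * (1 / r) = 1 := mul_one_div_cancel hr0.ne'
    rw [← hsum] at this
    linear_combination this
  have hr1 : r < 1 := by
    have h10 : 0 < Real.log (10 : ℝ) := log_pos (by norm_num)
    have h100 : Real.log (100 : ℝ) = 2 * Real.log 10 := by
      rw [show (100 : ℝ) = 10 ^ 2 by norm_num, Real.log_pow]; push_cast; ring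
    rcases hr with hr | hr
    · exact hr.trans ((div_lt_one (log_pos (by norm_num))).mpr
        (log_lt_log (by norm_num) (by norm_num)))
    · by_contra hcon
      push Not at hcon
      rw [h100] at hr
      have h2 : 0 ≤ r / p₂.toReal * Real.log 2 :=
        mul_nonneg (div_nonneg hr0.le ENNReal.toReal_nonneg) (log_nonneg (by norm_num))
      have := mul_le_mul_of_nonneg_right hcon (by positivity : 0 ≤ 2 * Real.log (10:ℝ))
      linarith
  obtain ⟨P, S, N₁, N₂, N₃, F, hS, hF, hb, hA₁, hA₂, hA₃, hfib, hbig⟩ :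
      ∃ (P : Finset (ℤ × ℤ)) (S N₁ N₂ N₃ F : ℕ), 1 ≤ S ∧ 1 ≤ F ∧
      (∀ p ∈ P, |p.1| ≤ S ∧ |p.2| ≤ S) ∧
      (P.image (fun p => p.1 - 1 * p.2)).card ≤ N₁ ∧
      (P.image (fun p => p.1 - 2 * p.2)).card ≤ N₂ ∧
      (P.image (fun p => p.1 - 3 * p.2)).card ≤ N₃ ∧
      (∀ x, (P.filter (fun p => p.1 = x)).card ≤ F) ∧
      8 * 40 * (C : ℝ) ^ r * ((N₁ : ℝ) ^ a₁ * (N₂ : ℝ) ^ a₂ * (N₃ : ℝ) ^ a₃) * (S : ℝ) ^ r *
        (F : ℝ) ^ (1 - r) < P.card := by
    rcases hr with hr | hr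
    · obtain ⟨D, μ, s, hs, hμ, hμ1, h1, h2, h3, h4, h5, hineq⟩ := exists_dist hr0 hr
      refine exists_pairs (κ := 7 / 26) hs hs hs (show 0 < 3 / 52 * s by positivity)
        (show 3 / 52 * s ≤ 13 * s by linarith) hμ hμ1 h1 h2 h3 h4 ?_ hr0 hr1 ha1 ha2 ha3 hasum ?_
        (by positivity)
      · rw [← h5]
        exact Finset.sum_congr rfl fun v _ => by ring
      · have e : a₁ * (Real.log (normC s) + 1 / 2) + a₂ * (Real.log (normC s) + 1 / 2) +
            a₃ * (Real.log (normC s) + 1 / 2) = Real.log (normC s) + 1 / 2 := by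
          linear_combination (Real.log (normC s) + 1 / 2) * hasum
        linarith
    · rw [← ha2e] at hr
      obtain ⟨D, μ, s, hs, hμ, hμ1, h1, h2, h3, h4, h5, hineq⟩ :=
        exists_dist_zero hr0 ha2 (by linarith) hr
      refine exists_pairs (κ := 3 / 10) hs (by positivity) hs (show 0 < 1 / 10 * s by positivity)
        (show 1 / 10 * s ≤ 10 * s by linarith) hμ hμ1 h1 h2 h3 h4 h5 hr0 hr1 ha1 ha2 ha3 hasum ?_
        (by positivity)
      have e : a₁ * (Real.log (normC s) + 1 / 2) + a₃ * (Real.log (normC s) + 1 / 2) =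
          (1 - a₂) * (Real.log (normC s) + 1 / 2) := by
        linear_combination (Real.log (normC s) + 1 / 2) * hasum
      linarith
  obtain ⟨f₁, f₂, f₃, g, hg, n₁, n₂, n₃, hlow⟩ :=
    exists_large (r := r) hr0 hr1 hS hF hb hA₁ hA₂ hA₃ hfib
  have hbd := hC f₁ f₂ f₃ g hg
  have hn : ∀ (p : ℝ≥0∞) (N : ℕ), ((4 * (N : ℝ≥0∞)) ^ (1 / p.toReal)) ^ r =
      ENNReal.ofReal ((4 * (N : ℝ)) ^ (r / p.toReal)) := by
    intro p N
    rw [← ENNReal.rpow_mul, show (4 : ℝ≥0∞) * (N : ℝ≥0∞) = ENNReal.ofReal (4 * N) by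
      simp [ENNReal.ofReal_mul], ENNReal.ofReal_rpow_of_nonneg (by positivity)
      (mul_nonneg (div_nonneg zero_le_one ENNReal.toReal_nonneg) hr0.le)]
    congr 1
    ring_nf
  have hup : eLpNorm g (ENNReal.ofReal r) volume ≤ C * ((4 * (N₁ : ℝ≥0∞)) ^ (1 / p₁.toReal) *
      (4 * (N₂ : ℝ≥0∞)) ^ (1 / p₂.toReal) * (4 * (N₃ : ℝ≥0∞)) ^ (1 / p₃.toReal)) := by
    refine hbd.trans ?_
    rw [mul_assoc, mul_assoc, mul_assoc ((4 * (N₁ : ℝ≥0∞)) ^ (1 / p₁.toReal))]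
    exact mul_le_mul' le_rfl (mul_le_mul' (n₁ _) (mul_le_mul' (n₂ _) (n₃ _)))
  rw [eLpNorm_eq_lintegral_rpow_enorm_toReal hrne ENNReal.ofReal_ne_top,
    ENNReal.toReal_ofReal hr0.le] at hup
  have hup' := ENNReal.rpow_le_rpow hup hr0.le
  rw [one_div, ENNReal.rpow_inv_rpow hr0.ne', ENNReal.mul_rpow_of_nonneg _ _ hr0.le,
    ENNReal.mul_rpow_of_nonneg _ _ hr0.le, ENNReal.mul_rpow_of_nonneg _ _ hr0.le, hn, hn, hn,
    ← ha1e, ← ha2e, ← ha3e, ← ENNReal.ofReal_coe_nnreal,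
    ENNReal.ofReal_rpow_of_nonneg C.coe_nonneg hr0.le, ← ENNReal.ofReal_mul (by positivity),
    ← ENNReal.ofReal_mul (by positivity), ← ENNReal.ofReal_mul (by positivity)] at hup'
  have hle := (ENNReal.ofReal_le_ofReal_iff (by positivity)).mp (hlow.trans hup')
  have hF' : (0 : ℝ) < F := by exact_mod_cast hF
  have hS' : (1 : ℝ) ≤ S := by exact_mod_cast hS
  rw [div_le_iff₀ (by positivity)] at hle
  have e1 : (F : ℝ) ^ (r - 1) * (F : ℝ) ^ (1 - r) = 1 := by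
    rw [← rpow_add hF']; norm_num
  have e4 : (4 * (N₁ : ℝ)) ^ a₁ * (4 * (N₂ : ℝ)) ^ a₂ * (4 * (N₃ : ℝ)) ^ a₃ =
      4 * ((N₁ : ℝ) ^ a₁ * (N₂ : ℝ) ^ a₂ * (N₃ : ℝ) ^ a₃) := by
    rw [mul_rpow (by norm_num) (Nat.cast_nonneg _), mul_rpow (by norm_num) (Nat.cast_nonneg _),
      mul_rpow (by norm_num) (Nat.cast_nonneg _)]
    have : (4 : ℝ) ^ a₁ * (4 : ℝ) ^ a₂ * (4 : ℝ) ^ a₃ = 4 := by
      rw [← rpow_add (by norm_num : (0:ℝ) < 4), ← rpow_add (by norm_num : (0:ℝ) < 4), hasum,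
        rpow_one]
    linear_combination ((N₁ : ℝ) ^ a₁ * (N₂ : ℝ) ^ a₂ * (N₃ : ℝ) ^ a₃) * this
  have h40 : (40 : ℝ) ^ r ≤ 40 := by
    calc (40 : ℝ) ^ r ≤ (40 : ℝ) ^ (1 : ℝ) := rpow_le_rpow_of_exponent_le (by norm_num) hr1.le
      _ = 40 := rpow_one _
  set W := (N₁ : ℝ) ^ a₁ * (N₂ : ℝ) ^ a₂ * (N₃ : ℝ) ^ a₃ with hW
  have hW0 : 0 ≤ W := by positivity
  rw [e4] at hle
  have key : (P.card : ℝ) ≤ 8 * 40 * (C : ℝ) ^ r * W * (S : ℝ) ^ r * (F : ℝ) ^ (1 - r) := by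
    calc (P.card : ℝ) = (P.card : ℝ) * (F : ℝ) ^ (r - 1) * (F : ℝ) ^ (1 - r) := by
          rw [mul_assoc, e1, mul_one]
      _ ≤ (C : ℝ) ^ r * (4 * W) * (2 * (40 * S) ^ r) * (F : ℝ) ^ (1 - r) :=
          mul_le_mul_of_nonneg_right hle (by positivity)
      _ = (C : ℝ) ^ r * (8 * W) * ((40 : ℝ) ^ r * (S : ℝ) ^ r) * (F : ℝ) ^ (1 - r) := by
          rw [mul_rpow (by norm_num) (by positivity)]; ring
      _ ≤ (C : ℝ) ^ r * (8 * W) * (40 * (S : ℝ) ^ r) * (F : ℝ) ^ (1 - r) := by gcongr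
      _ = _ := by ring
  linarith

end Vale.Agent.P141
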