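import Mathlib

/-! The trilinear Hilbert transform with slopes 1, 2, 3: definitions. -/

namespace Vale.Agent.P141

open MeasureTheory Filter
open scoped ENNReal NNReal SchwartzMap Topology

/-- The truncated trilinear Hilbert transform
`∫_{ε < |t| < R} f₁(x - t) f₂(x - 2t) f₃(x - 3t) dt / t`. -/
noncomputable def truncTHT (f₁ f₂ f₃ : 𝓢(ℝ, ℂ)) (ε R x : ℝ) : ℂ :=
  ∫ t in {t : ℝ | ε < |t| ∧ |t| < R}, f₁ (x - t) * f₂ (x - 2 * t) * f₃ (x - 3 * t) / (t : ℂ)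

/-- `g` is the pointwise limit of the truncations as `ε → 0⁺`, `R → ∞`. -/
def IsTHT (f₁ f₂ f₃ : 𝓢(ℝ, ℂ)) (g : ℝ → ℂ) : Prop :=
  ∀ x, Tendsto (fun q : ℝ × ℝ => truncTHT f₁ f₂ f₃ q.1 q.2 x)
    (𝓝[>] (0 : ℝ) ×ˢ atTop) (𝓝 (g x))

/-- The trilinear Hilbert transform is bounded from `L^p₁ × L^p₂ × L^p₃` to `L^r` on Schwartz
functions. -/
def THTBoundedAt (p₁ p₂ p₃ : ℝ≥0∞) (r : ℝ) : Prop :=
  ∃ C : ℝ≥0, ∀ f₁ f₂ f₃ : 𝓢(ℝ, ℂ), ∀ g : ℝ → ℂ, IsTHT f₁ f₂ f₃ g →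
    eLpNorm g (ENNReal.ofReal r) volume ≤
      C * eLpNorm (⇑f₁) p₁ volume * eLpNorm (⇑f₂) p₂ volume * eLpNorm (⇑f₃) p₃ volume

end Vale.Agent.P141
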