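import Mathlib

/-! Discrete Gaussians on the plane lattice used for the trilinear Hilbert transform:
entropy lower bound and Gibbs upper bounds. -/

namespace Vale.Agent.P141

open Real Finset MeasureTheory

/-- A one-dimensional normalising constant. -/
noncomputable def normC (v : ℝ) : ℝ := 2 + √(2 * π * v)

/-- A sub-probability Gaussian kernel on the integers. -/
noncomputable def kern (v δ : ℝ) (n : ℤ) : ℝ :=
  exp (-((n : ℝ) - δ) ^ 2 / (2 * v)) / normC v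

lemma normC_pos (v : ℝ) : 0 < normC v := by
  unfold normC; positivity

lemma kern_pos (v δ : ℝ) (n : ℤ) : 0 < kern v δ n :=
  div_pos (exp_pos _) (normC_pos v)

lemma neg_log_kern (v δ : ℝ) (n : ℤ) :
    -log (kern v δ n) = ((n : ℝ) - δ) ^ 2 / (2 * v) + log (normC v) := by
  rw [kern, log_div (exp_pos _).ne' (normC_pos v).ne', log_exp]
  ring

lemma sum_nat_gauss_le {lam : ℝ} (hlam : 0 < lam) (S : Finset ℕ) :
    ∑ m ∈ S, exp (-lam * (m : ℝ) ^ 2) ≤ 1 + √(π / lam) / 2 := by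
  obtain ⟨N, hN⟩ := Finset.exists_nat_subset_range S
  calc ∑ m ∈ S, exp (-lam * (m : ℝ) ^ 2)
      ≤ ∑ m ∈ Finset.range (N + 1), exp (-lam * (m : ℝ) ^ 2) := by
        apply Finset.sum_le_sum_of_subset_of_nonneg
        · exact hN.trans (Finset.range_mono (Nat.le_succ N))
        · intros; positivity
    _ = (∑ m ∈ Finset.range N, exp (-lam * (0 + ((m + 1 : ℕ) : ℝ)) ^ 2)) + 1 := by
        rw [Finset.sum_range_succ']; simp
    _ ≤ √(π / lam) / 2 + 1 := by
        have hanti : AntitoneOn (fun x : ℝ => exp (-lam * x ^ 2)) (Set.Icc 0 (0 + (N : ℝ))) := by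
          intro x hx y _ hxy
          apply exp_le_exp.mpr
          have : x ^ 2 ≤ y ^ 2 := pow_le_pow_left₀ hx.1 hxy 2
          nlinarith
        have h1 := hanti.sum_le_integral
        have hint : IntegrableOn (fun x : ℝ => exp (-lam * x ^ 2)) (Set.Ioi 0) :=
          integrableOn_Ioi_exp_neg_mul_sq_iff.mpr hlam
        have h2 : (∫ x in (0:ℝ)..0 + (N : ℝ), exp (-lam * x ^ 2)) ≤ √(π / lam) / 2 := by
          rw [intervalIntegral.integral_of_le (by simp), ← integral_gaussian_Ioi lam]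
          apply setIntegral_mono_set hint
          · exact Filter.Eventually.of_forall fun x => (exp_pos _).le
          · exact Set.Ioc_subset_Ioi_self.eventuallyLE
        simpa using h1.trans h2
    _ = _ := by ring

lemma sum_int_gauss_le {lam : ℝ} (hlam : 0 < lam) (δ : ℝ) (S : Finset ℤ) :
    ∑ n ∈ S, exp (-lam * ((n : ℝ) - δ) ^ 2) ≤ 2 + √(π / lam) := by
  set c := ⌈δ⌉ with hc
  have hb1 : δ ≤ (c : ℝ) := Int.le_ceil δ
  have hb2 : (c : ℝ) < δ + 1 := Int.ceil_lt_add_one δ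
  rw [← Finset.sum_filter_add_sum_filter_not S (fun n => c ≤ n)]
  have hR : ∑ n ∈ S.filter (fun n => c ≤ n), exp (-lam * ((n : ℝ) - δ) ^ 2)
      ≤ 1 + √(π / lam) / 2 := by
    calc _ ≤ ∑ n ∈ S.filter (fun n => c ≤ n), exp (-lam * (((n - c).toNat : ℕ) : ℝ) ^ 2) := by
          apply Finset.sum_le_sum
          intro n hn
          have hcn : c ≤ n := (Finset.mem_filter.mp hn).2
          have e : (((n - c).toNat : ℕ) : ℝ) = (n : ℝ) - c := by
            rw [← Int.cast_natCast, Int.toNat_of_nonneg (by omega)]; push_cast; ring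
          rw [e]
          apply exp_le_exp.mpr
          have hcn' : (c : ℝ) ≤ n := by exact_mod_cast hcn
          have : ((n : ℝ) - c) ^ 2 ≤ ((n : ℝ) - δ) ^ 2 :=
            pow_le_pow_left₀ (by linarith) (by linarith) 2
          nlinarith
      _ = ∑ m ∈ (S.filter (fun n => c ≤ n)).image (fun n => (n - c).toNat),
            exp (-lam * (m : ℝ) ^ 2) := by
          rw [Finset.sum_image]
          intro a ha b hb hab
          simp only [Finset.coe_filter, Set.mem_ofPred_eq] at ha hb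
          have hab' : ((a - c).toNat : ℕ) = (b - c).toNat := hab
          omega
      _ ≤ _ := sum_nat_gauss_le hlam _
  have hL : ∑ n ∈ S.filter (fun n => ¬ c ≤ n), exp (-lam * ((n : ℝ) - δ) ^ 2)
      ≤ 1 + √(π / lam) / 2 := by
    calc _ ≤ ∑ n ∈ S.filter (fun n => ¬ c ≤ n),
            exp (-lam * (((c - 1 - n).toNat : ℕ) : ℝ) ^ 2) := by
          apply Finset.sum_le_sum
          intro n hn
          have hcn : n ≤ c - 1 := by have := (Finset.mem_filter.mp hn).2; omega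
          have e : (((c - 1 - n).toNat : ℕ) : ℝ) = (c : ℝ) - 1 - n := by
            rw [← Int.cast_natCast, Int.toNat_of_nonneg (by omega)]; push_cast; ring
          rw [e]
          apply exp_le_exp.mpr
          have hcn' : (n : ℝ) ≤ c - 1 := by exact_mod_cast hcn
          have : ((c : ℝ) - 1 - n) ^ 2 ≤ (δ - (n : ℝ)) ^ 2 :=
            pow_le_pow_left₀ (by linarith) (by linarith) 2
          nlinarith
      _ = ∑ m ∈ (S.filter (fun n => ¬ c ≤ n)).image (fun n => (c - 1 - n).toNat),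
            exp (-lam * (m : ℝ) ^ 2) := by
          rw [Finset.sum_image]
          intro a ha b hb hab
          simp only [Finset.coe_filter, Set.mem_ofPred_eq] at ha hb
          have hab' : ((c - 1 - a).toNat : ℕ) = (c - 1 - b).toNat := hab
          omega
      _ ≤ _ := sum_nat_gauss_le hlam _
  linarith

lemma sum_kern_le_one {v : ℝ} (hv : 0 < v) (δ : ℝ) (S : Finset ℤ) :
    ∑ n ∈ S, kern v δ n ≤ 1 := by
  unfold kern
  rw [← Finset.sum_div, div_le_one (normC_pos v)]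
  calc ∑ n ∈ S, exp (-((n : ℝ) - δ) ^ 2 / (2 * v))
      = ∑ n ∈ S, exp (-(1 / (2 * v)) * ((n : ℝ) - δ) ^ 2) := by
        refine Finset.sum_congr rfl fun n _ => ?_
        congr 1; ring
    _ ≤ 2 + √(π / (1 / (2 * v))) := sum_int_gauss_le (by positivity) δ S
    _ = normC v := by unfold normC; congr 2; field_simp

lemma exists_gauss_sum_ge {lam : ℝ} (hlam : 0 < lam) :
    ∃ S : Finset ℤ, √(π / lam) - 1 ≤ ∑ n ∈ S, exp (-lam * (n : ℝ) ^ 2) := by
  have hs : Summable (fun n : ℤ => exp (-lam * (n : ℝ) ^ 2)) :=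
    summable_of_sum_le (fun n => (exp_pos _).le) (c := 2 + √(π / lam))
      (fun S => by simpa using sum_int_gauss_le hlam 0 S)
  have hP := Real.tsum_exp_neg_mul_int_sq (a := lam / π) (by positivity)
  have e1 : ∀ n : ℤ, exp (-π * (lam / π) * (n : ℝ) ^ 2) = exp (-lam * (n : ℝ) ^ 2) := by
    intro n; congr 1; field_simp
  rw [tsum_congr e1] at hP
  have hge : √(π / lam) ≤ ∑' n : ℤ, exp (-lam * (n : ℝ) ^ 2) := by
    rw [hP]
    set mu := π * π / lam with hmu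
    have hmupos : 0 < mu := by positivity
    have e2 : ∀ n : ℤ, exp (-π / (lam / π) * (n : ℝ) ^ 2) = exp (-mu * (n : ℝ) ^ 2) := by
      intro n; congr 1; rw [hmu]; field_simp
    rw [tsum_congr e2]
    have hs2 : Summable (fun n : ℤ => exp (-mu * (n : ℝ) ^ 2)) :=
      summable_of_sum_le (fun n => (exp_pos _).le) (c := 2 + √(π / mu))
        (fun S => by simpa using sum_int_gauss_le hmupos 0 S)
    have h1 : (1 : ℝ) ≤ ∑' n : ℤ, exp (-mu * (n : ℝ) ^ 2) := by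
      have := hs2.le_tsum (0 : ℤ) (fun n _ => (exp_pos _).le)
      simpa using this
    have h2 : √(π / lam) = 1 / (lam / π) ^ (1 / 2 : ℝ) := by
      rw [← sqrt_eq_rpow, one_div, ← sqrt_inv, inv_div]
    rw [h2]
    exact le_mul_of_one_le_right (by positivity) h1
  obtain ⟨S, hS⟩ := (hs.hasSum.eventually_const_le
    (show √(π / lam) - 1 < ∑' n : ℤ, exp (-lam * (n : ℝ) ^ 2) by linarith)).exists
  exact ⟨S, hS⟩

lemma exists_even_sum_ge {lam : ℝ} (hlam : 0 < lam) :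
    ∃ S : Finset ℤ, √(π / lam) / 2 - 3 ≤ ∑ n ∈ S, exp (-lam * ((2 * n : ℤ) : ℝ) ^ 2) := by
  obtain ⟨S, hS⟩ := exists_gauss_sum_ge (show 0 < 4 * lam by positivity)
  refine ⟨S, ?_⟩
  have e : √(π / (4 * lam)) = √(π / lam) / 2 := by
    rw [show π / (4 * lam) = π / lam / 2 ^ 2 by field_simp; ring,
      sqrt_div (by positivity), sqrt_sq (by norm_num)]
  calc √(π / lam) / 2 - 3 ≤ √(π / (4 * lam)) - 1 := by rw [e]; linarith
    _ ≤ _ := hS
    _ = _ := by
      refine Finset.sum_congr rfl fun n _ => ?_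
      congr 1; push_cast; ring

lemma exists_odd_sum_ge {lam : ℝ} (hlam : 0 < lam) :
    ∃ S : Finset ℤ, √(π / lam) / 2 - 3 ≤ ∑ n ∈ S, exp (-lam * ((2 * n + 1 : ℤ) : ℝ) ^ 2) := by
  obtain ⟨T, hT⟩ := exists_gauss_sum_ge hlam
  have e : √(π / (4 * lam)) = √(π / lam) / 2 := by
    rw [show π / (4 * lam) = π / lam / 2 ^ 2 by field_simp; ring,
      sqrt_div (by positivity), sqrt_sq (by norm_num)]
  have hev : ∑ n ∈ T.filter (fun n => n % 2 = 0), exp (-lam * (n : ℝ) ^ 2)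
      ≤ 2 + √(π / lam) / 2 := by
    calc _ = ∑ m ∈ (T.filter (fun n => n % 2 = 0)).image (fun n : ℤ => n / 2),
          exp (-(4 * lam) * ((m : ℝ) - 0) ^ 2) := by
          rw [Finset.sum_image]
          · refine Finset.sum_congr rfl fun n hn => ?_
            have h2 : n % 2 = 0 := (Finset.mem_filter.mp hn).2
            have h3 : n = 2 * (n / 2) := by omega
            congr 1
            rw [h3]; push_cast; rw [← h3]; ring
          · intro a ha b hb hab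
            simp only [Finset.coe_filter, Set.mem_ofPred_eq] at ha hb
            have hab' : a / 2 = b / 2 := hab
            omega
      _ ≤ 2 + √(π / (4 * lam)) := sum_int_gauss_le (by positivity) 0 _
      _ = _ := by rw [e]
  refine ⟨(T.filter (fun n => ¬ n % 2 = 0)).image (fun n : ℤ => n / 2), ?_⟩
  have hodd : ∑ m ∈ (T.filter (fun n => ¬ n % 2 = 0)).image (fun n : ℤ => n / 2),
      exp (-lam * ((2 * m + 1 : ℤ) : ℝ) ^ 2)
      = ∑ n ∈ T.filter (fun n => ¬ n % 2 = 0), exp (-lam * (n : ℝ) ^ 2) := by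
    rw [Finset.sum_image]
    · refine Finset.sum_congr rfl fun n hn => ?_
      have h2 : ¬ n % 2 = 0 := (Finset.mem_filter.mp hn).2
      have h3 : 2 * (n / 2) + 1 = n := by omega
      rw [h3]
    · intro a ha b hb hab
      simp only [Finset.coe_filter, Set.mem_ofPred_eq] at ha hb
      have hab' : a / 2 = b / 2 := hab
      omega
  rw [hodd]
  have := Finset.sum_filter_add_sum_filter_not T (fun n => n % 2 = 0)
    (fun n => exp (-lam * (n : ℝ) ^ 2))
  linarith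

/-- The invariant quadratic form. -/
def qf (v : ℤ × ℤ) : ℤ := v.1 ^ 2 + v.1 * v.2 + v.2 ^ 2

/-- Sublevel sets of the quadratic form. -/
noncomputable def disc (R : ℕ) : Finset (ℤ × ℤ) :=
  (Finset.Icc (-(2 * R : ℤ)) (2 * R) ×ˢ Finset.Icc (-(2 * R : ℤ)) (2 * R)).filter
    (fun v => qf v ≤ R)

lemma mem_disc {R : ℕ} {v : ℤ × ℤ} : v ∈ disc R ↔ qf v ≤ R := by
  constructor
  · intro h; exact (Finset.mem_filter.mp h).2
  · intro h
    have h' := h
    simp only [qf] at h'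
    have hs := sq_nonneg (v.1 + v.2)
    have h1 : v.1 ^ 2 ≤ 2 * (R : ℤ) := by nlinarith
    have h2 : v.2 ^ 2 ≤ 2 * (R : ℤ) := by nlinarith
    refine Finset.mem_filter.mpr ⟨?_, h⟩
    simp only [Finset.mem_product, Finset.mem_Icc]
    have a1 := Int.le_self_sq v.1
    have a2 := Int.le_self_sq (-v.1)
    have b1 := Int.le_self_sq v.2
    have b2 := Int.le_self_sq (-v.2)
    simp only [neg_sq] at a2 b2
    omega

lemma gibbs {ι : Type*} (D : Finset ι) (μ q : ι → ℝ) (hμ : ∀ i ∈ D, 0 < μ i)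
    (hq : ∀ i ∈ D, 0 < q i) (hsum : ∑ i ∈ D, μ i = 1) (hqs : ∑ i ∈ D, q i ≤ 1) :
    ∑ i ∈ D, μ i * -log (μ i) ≤ ∑ i ∈ D, μ i * -log (q i) := by
  have h : ∑ i ∈ D, (μ i * log (q i) - μ i * log (μ i)) ≤ ∑ i ∈ D, (q i - μ i) := by
    apply Finset.sum_le_sum
    intro i hi
    have := log_le_sub_one_of_pos (div_pos (hq i hi) (hμ i hi))
    rw [log_div (hq i hi).ne' (hμ i hi).ne'] at this
    have h2 := mul_le_mul_of_nonneg_left this (hμ i hi).le
    have h3 : μ i * (q i / μ i) = q i := mul_div_cancel₀ _ (hμ i hi).ne'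
    linarith
  simp only [Finset.sum_sub_distrib] at h
  simp only [mul_neg, Finset.sum_neg_distrib]
  linarith

lemma log_normC_le {v ζ : ℝ} (hv : 0 < v) (h : 2 ≤ ζ * √(2 * π * v)) :
    log (normC v) ≤ log (2 * π * v) / 2 + ζ := by
  have hs : 0 < √(2 * π * v) := by positivity
  have hζ : 0 < ζ := by nlinarith
  calc log (normC v) ≤ log (√(2 * π * v) * exp ζ) := by
        apply log_le_log (normC_pos v)
        have := add_one_le_exp ζ
        unfold normC; nlinarith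
    _ = _ := by rw [log_mul hs.ne' (exp_pos ζ).ne', log_exp, log_sqrt (by positivity)]

/-- The partition function on a disc is at least the continuous one, up to `exp (-ζ)`. -/
lemma exists_scale {ζ big : ℝ} (hζ : 0 < ζ) :
    ∃ (β : ℝ) (R : ℕ), 0 < β ∧ big < exp (-ζ) * (π / (β * √3)) ∧
      exp (-ζ) * (π / (β * √3)) ≤ ∑ v ∈ disc R, exp (-(2 * β) * (qf v : ℝ)) := by
  set a := 1 - exp (-(ζ / 2)) with hadef
  have ha : 0 < a := by
    have : exp (-(ζ / 2)) < 1 := exp_lt_one_iff.mpr (by linarith)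
    linarith
  obtain ⟨y, hy, hy1, hy2, hy3⟩ : ∃ y : ℝ, 0 < y ∧ 3 ≤ a * (y * √(2 * π) / 2) ∧
      3 ≤ a * (y * √(2 * π / 3) / 2) ∧ big < exp (-ζ) * (π * y ^ 2 / √3) := by
    have e : ∀ c : ℝ, 0 < c → ∀ M : ℝ, ∀ᶠ y : ℝ in Filter.atTop, M < c * y := fun c hc M =>
      (Filter.tendsto_id.const_mul_atTop hc).eventually_gt_atTop M
    obtain ⟨y, ⟨⟨h1, h2⟩, h3⟩, h4⟩ := ((((e (a * √(2 * π) / 2) (by positivity) 3).and
      (e (a * √(2 * π / 3) / 2) (by positivity) 3)).and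
      (e (exp (-ζ) * π / √3) (by positivity) big)).and (Filter.eventually_ge_atTop 1)).exists
    refine ⟨y, by linarith, ?_, ?_, ?_⟩
    · linarith
    · linarith
    · refine lt_of_lt_of_le h3 ?_
      have : y ≤ y ^ 2 := by nlinarith
      calc exp (-ζ) * π / √3 * y ≤ exp (-ζ) * π / √3 * y ^ 2 := by gcongr
        _ = _ := by ring
  have hconv : π / (1 / y ^ 2 * √3) = π * y ^ 2 / √3 := by field_simp
  set β := 1 / y ^ 2 with hβdef
  have hβ : 0 < β := by positivity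
  have hl1 : 0 < β / 2 := by positivity
  have hl2 : 0 < 3 * β / 2 := by positivity
  have q1 : √(π / (β / 2)) = y * √(2 * π) := by
    rw [show π / (β / 2) = y ^ 2 * (2 * π) by rw [hβdef]; field_simp, sqrt_mul (by positivity),
      sqrt_sq hy.le]
  have q2 : √(π / (3 * β / 2)) = y * √(2 * π / 3) := by
    rw [show π / (3 * β / 2) = y ^ 2 * (2 * π / 3) by rw [hβdef]; field_simp,
      sqrt_mul (by positivity), sqrt_sq hy.le]
  obtain ⟨U0, hU0⟩ := exists_even_sum_ge hl1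
  obtain ⟨W0, hW0⟩ := exists_even_sum_ge hl2
  obtain ⟨U1, hU1⟩ := exists_odd_sum_ge hl1
  obtain ⟨W1, hW1⟩ := exists_odd_sum_ge hl2
  rw [q1] at hU0 hU1
  rw [q2] at hW0 hW1
  set g1 := exp (-(ζ / 2)) * (y * √(2 * π) / 2) with hg1
  set g2 := exp (-(ζ / 2)) * (y * √(2 * π / 3) / 2) with hg2
  have hg1' : g1 ≤ y * √(2 * π) / 2 - 3 := by
    rw [hg1]; rw [hadef] at hy1; linarith
  have hg2' : g2 ≤ y * √(2 * π / 3) / 2 - 3 := by
    rw [hg2]; rw [hadef] at hy2; linarith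
  have hg2pos : 0 ≤ g2 := by positivity
  set emb0 : ℤ × ℤ → ℤ × ℤ := fun p => (p.1 - p.2, 2 * p.2) with hemb0
  set emb1 : ℤ × ℤ → ℤ × ℤ := fun p => (p.1 - p.2, 2 * p.2 + 1) with hemb1
  set V := (U0 ×ˢ W0).image emb0 ∪ (U1 ×ˢ W1).image emb1 with hV
  set R := V.sup (fun v => (qf v).toNat) with hR
  refine ⟨β, R, hβ, hconv ▸ hy3, ?_⟩
  rw [hconv]
  have hVD : V ⊆ disc R := by
    intro v hv
    rw [mem_disc]
    have : (qf v).toNat ≤ R := Finset.le_sup (f := fun v => (qf v).toNat) hv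
    omega
  have hdis : Disjoint ((U0 ×ˢ W0).image emb0) ((U1 ×ˢ W1).image emb1) := by
    rw [Finset.disjoint_left]
    intro v h1 h2
    simp only [Finset.mem_image, hemb0, hemb1] at h1 h2
    obtain ⟨p, -, rfl⟩ := h1
    obtain ⟨q, -, hq⟩ := h2
    have := congrArg Prod.snd hq
    simp only at this
    omega
  set w : ℤ × ℤ → ℝ := fun v => exp (-(2 * β) * (qf v : ℝ)) with hw
  have h0 : ∑ v ∈ V, w v ≤ ∑ v ∈ disc R, w v :=
    Finset.sum_le_sum_of_subset_of_nonneg hVD (fun v _ _ => (exp_pos _).le)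
  rw [hV, Finset.sum_union hdis] at h0
  have i0 : ∑ v ∈ (U0 ×ˢ W0).image emb0, w v =
      (∑ n ∈ U0, exp (-(β / 2) * ((2 * n : ℤ) : ℝ) ^ 2)) *
      (∑ m ∈ W0, exp (-(3 * β / 2) * ((2 * m : ℤ) : ℝ) ^ 2)) := by
    rw [Finset.sum_image, Finset.sum_product, Finset.sum_mul_sum]
    · refine Finset.sum_congr rfl fun n _ => Finset.sum_congr rfl fun m _ => ?_
      simp only [hw, hemb0, qf, ← exp_add]
      congr 1; push_cast; ring
    · intro p _ q _ hpq
      simp only [hemb0, Prod.mk.injEq] at hpq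
      ext <;> omega
  have i1 : ∑ v ∈ (U1 ×ˢ W1).image emb1, w v =
      (∑ n ∈ U1, exp (-(β / 2) * ((2 * n + 1 : ℤ) : ℝ) ^ 2)) *
      (∑ m ∈ W1, exp (-(3 * β / 2) * ((2 * m + 1 : ℤ) : ℝ) ^ 2)) := by
    rw [Finset.sum_image, Finset.sum_product, Finset.sum_mul_sum]
    · refine Finset.sum_congr rfl fun n _ => Finset.sum_congr rfl fun m _ => ?_
      simp only [hw, hemb1, qf, ← exp_add]
      congr 1; push_cast; ring
    · intro p _ q _ hpq
      simp only [hemb1, Prod.mk.injEq] at hpq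
      ext <;> omega
  rw [i0, i1] at h0
  have p0 := mul_le_mul (hg1'.trans hU0) (hg2'.trans hW0) hg2pos
    (Finset.sum_nonneg fun _ _ => (exp_pos _).le)
  have p1 := mul_le_mul (hg1'.trans hU1) (hg2'.trans hW1) hg2pos
    (Finset.sum_nonneg fun _ _ => (exp_pos _).le)
  have hprod : 2 * (g1 * g2) = exp (-ζ) * (π * y ^ 2 / √3) := by
    rw [hg1, hg2, show -ζ = -(ζ / 2) + -(ζ / 2) by ring, exp_add,
      sqrt_div (by positivity : (0:ℝ) ≤ 2 * π)]
    have : √(2 * π) * √(2 * π) = 2 * π := mul_self_sqrt (by positivity)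
    field_simp
    linear_combination this
  linarith

/-- The six facts about the discrete Gaussian on a disc. -/
lemma disc_gauss (β : ℝ) (R : ℕ) :
    let Z := ∑ v ∈ disc R, exp (-(2 * β) * (qf v : ℝ))
    let μ := fun v : ℤ × ℤ => exp (-(2 * β) * (qf v : ℝ)) / Z
    let s := ∑ v ∈ disc R, μ v * (v.1 : ℝ) ^ 2
    (∀ v ∈ disc R, 0 < μ v) ∧ ∑ v ∈ disc R, μ v = 1 ∧
      ∑ v ∈ disc R, μ v * (v.2 : ℝ) ^ 2 = s ∧
      ∑ v ∈ disc R, μ v * ((v.1 + v.2 : ℤ) : ℝ) ^ 2 = s ∧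
      ∑ v ∈ disc R, μ v * ((3 * v.1 - v.2 : ℤ) : ℝ) ^ 2 = 13 * s ∧
      ∑ v ∈ disc R, μ v * ((v.1 : ℝ) - 7 * ((3 * v.1 - v.2 : ℤ) : ℝ) / 26) ^ 2 = 3 / 52 * s ∧
      ∑ v ∈ disc R, μ v * -log (μ v) = log Z + 3 * β * s := by
  intro Z μ s
  have hne : (disc R).Nonempty := ⟨(0, 0), mem_disc.mpr (by simp [qf])⟩
  have hZpos : 0 < Z := Finset.sum_pos (fun v _ => exp_pos _) hne
  have hμpos : ∀ v ∈ disc R, 0 < μ v := fun v _ => div_pos (exp_pos _) hZpos
  have hμsum : ∑ v ∈ disc R, μ v = 1 := by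
    simp only [μ, ← Finset.sum_div]; exact div_self hZpos.ne'
  have hsym : ∀ F : ℤ × ℤ → ℝ,
      ∑ v ∈ disc R, μ v * F (v.2, -v.1 - v.2) = ∑ v ∈ disc R, μ v * F v := by
    intro F
    refine Finset.sum_nbij' (fun v => (v.2, -v.1 - v.2)) (fun v => (-v.1 - v.2, v.1))
      ?_ ?_ ?_ ?_ ?_
    · intro v hv
      rw [mem_disc] at hv ⊢
      simp only [qf] at hv ⊢; linarith
    · intro v hv
      rw [mem_disc] at hv ⊢
      simp only [qf] at hv ⊢; linarith
    · intro v _; ext <;> simp <;> omega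
    · intro v _; ext <;> simp
    · intro v _
      have : qf (v.2, -v.1 - v.2) = qf v := by simp only [qf]; ring
      simp only [μ, this]
  have hs1 : ∑ v ∈ disc R, μ v * (v.1 : ℝ) ^ 2 = s := rfl
  have hs2 : ∑ v ∈ disc R, μ v * (v.2 : ℝ) ^ 2 = s := hsym (fun v => (v.1 : ℝ) ^ 2)
  have hs3 : ∑ v ∈ disc R, μ v * ((v.1 + v.2 : ℤ) : ℝ) ^ 2 = s := by
    rw [← hs2, ← hsym (fun v => (v.2 : ℝ) ^ 2)]
    refine Finset.sum_congr rfl fun v _ => ?_
    push_cast; ring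
  refine ⟨hμpos, hμsum, hs2, hs3, ?_, ?_, ?_⟩
  · have : ∀ v ∈ disc R, μ v * ((3 * v.1 - v.2 : ℤ) : ℝ) ^ 2 = 12 * (μ v * (v.1 : ℝ) ^ 2) +
        4 * (μ v * (v.2 : ℝ) ^ 2) - 3 * (μ v * ((v.1 + v.2 : ℤ) : ℝ) ^ 2) := by
      intro v _; push_cast; ring
    rw [Finset.sum_congr rfl this, Finset.sum_sub_distrib, Finset.sum_add_distrib,
      ← Finset.mul_sum, ← Finset.mul_sum, ← Finset.mul_sum, hs1, hs2, hs3]
    ring
  · have : ∀ v ∈ disc R, μ v * ((v.1 : ℝ) - 7 * ((3 * v.1 - v.2 : ℤ) : ℝ) / 26) ^ 2 =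
        -10 / 676 * (μ v * (v.1 : ℝ) ^ 2) + 14 / 676 * (μ v * (v.2 : ℝ) ^ 2) +
        35 / 676 * (μ v * ((v.1 + v.2 : ℤ) : ℝ) ^ 2) := by
      intro v _; push_cast; ring
    rw [Finset.sum_congr rfl this, Finset.sum_add_distrib, Finset.sum_add_distrib,
      ← Finset.mul_sum, ← Finset.mul_sum, ← Finset.mul_sum, hs1, hs2, hs3]
    ring
  · have : ∀ v ∈ disc R, μ v * -log (μ v) = log Z * μ v + β * (μ v * (v.1 : ℝ) ^ 2) +
        β * (μ v * (v.2 : ℝ) ^ 2) + β * (μ v * ((v.1 + v.2 : ℤ) : ℝ) ^ 2) := by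
      intro v _
      simp only [μ]
      rw [log_div (exp_pos _).ne' hZpos.ne', log_exp]
      simp only [qf]; push_cast; ring
    rw [Finset.sum_congr rfl this, Finset.sum_add_distrib, Finset.sum_add_distrib,
      Finset.sum_add_distrib, ← Finset.mul_sum, ← Finset.mul_sum, ← Finset.mul_sum,
      ← Finset.mul_sum, hμsum, hs1, hs2, hs3]
    ring

lemma entropy_le_two {D : Finset (ℤ × ℤ)} {μ : ℤ × ℤ → ℝ} {s S0 : ℝ} (hS0 : 0 < S0)
    (hμ : ∀ v ∈ D, 0 < μ v) (hsum : ∑ v ∈ D, μ v = 1)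
    (h1 : ∑ v ∈ D, μ v * (v.1 : ℝ) ^ 2 = s) (h2 : ∑ v ∈ D, μ v * (v.2 : ℝ) ^ 2 = s) :
    ∑ v ∈ D, μ v * -log (μ v) ≤ s / S0 + 2 * log (normC S0) := by
  refine (gibbs D μ (fun v => kern S0 0 v.1 * kern S0 0 v.2) hμ
    (fun v _ => mul_pos (kern_pos _ _ _) (kern_pos _ _ _)) hsum ?_).trans (le_of_eq ?_)
  · calc ∑ v ∈ D, kern S0 0 v.1 * kern S0 0 v.2
        ≤ ∑ v ∈ (D.image Prod.fst) ×ˢ (D.image Prod.snd), kern S0 0 v.1 * kern S0 0 v.2 :=
          Finset.sum_le_sum_of_subset_of_nonneg Finset.subset_product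
            (fun v _ _ => (mul_pos (kern_pos _ _ _) (kern_pos _ _ _)).le)
      _ ≤ 1 := by
          rw [Finset.sum_product, ← Finset.sum_mul_sum]
          exact mul_le_one₀ (sum_kern_le_one hS0 0 _)
            (Finset.sum_nonneg fun _ _ => (kern_pos _ _ _).le) (sum_kern_le_one hS0 0 _)
  · have : ∀ v ∈ D, μ v * -log (kern S0 0 v.1 * kern S0 0 v.2) =
        1 / (2 * S0) * (μ v * (v.1 : ℝ) ^ 2) + 1 / (2 * S0) * (μ v * (v.2 : ℝ) ^ 2) +
        2 * log (normC S0) * μ v := by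
      intro v _
      rw [log_mul (kern_pos _ _ _).ne' (kern_pos _ _ _).ne', neg_add, neg_log_kern,
        neg_log_kern]
      ring
    rw [Finset.sum_congr rfl this, Finset.sum_add_distrib, Finset.sum_add_distrib,
      ← Finset.mul_sum, ← Finset.mul_sum, ← Finset.mul_sum, hsum, h1, h2]
    ring

lemma final_arith {r ζ s P : ℝ} (hr0 : 0 < r)
    (hζdef : ζ = (log 13 - r * log (676 / 3)) / 16) (hζ : 0 < ζ)
    (hgain : r * log (676 / 3) < log 13)
    (hsbig : (52 / 3) * (2 / ζ) ^ 2 / (2 * π) < s) (hlow : 1 + log (π * √3 * s) - ζ ≤ P) :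
    log (normC s) + 1 / 2 + r * (log (normC (13 * s)) + 1 / 2) +
      (1 - r) * (log (normC (3 / 52 * s)) + 1 / 2) < P := by
  set S0 : ℝ := (52 / 3) * (2 / ζ) ^ 2 / (2 * π) with hS0
  have hS0pos : 0 < S0 := by positivity
  have hs : 0 < s := hS0pos.trans hsbig
  -- normalising constants from above
  have hbnd : ∀ c : ℝ, 3 / 52 ≤ c → log (normC (c * s)) ≤ log (2 * π * (c * s)) / 2 + ζ := by
    intro c hc
    have hc0 : 0 < c := lt_of_lt_of_le (by norm_num) hc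
    refine log_normC_le (by positivity) ?_
    have hk : (2 / ζ) ^ 2 ≤ 2 * π * (c * s) := by
      have h1 : 3 / 52 * S0 ≤ c * s := mul_le_mul hc hsbig.le hS0pos.le hc0.le
      have h2 : 2 * π * (3 / 52 * S0) = (2 / ζ) ^ 2 := by rw [hS0]; field_simp
      rw [← h2]
      exact mul_le_mul_of_nonneg_left h1 (by positivity)
    have := sqrt_le_sqrt hk
    rw [sqrt_sq (by positivity), div_le_iff₀ hζ] at this
    linarith
  have b1 := hbnd 1 (by norm_num)
  rw [one_mul] at b1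
  have b2 := hbnd 13 (by norm_num)
  have b3 := hbnd (3 / 52) (by norm_num)
  have l1 : log (2 * π * s) = log 2 + log π + log s := by
    rw [log_mul (by positivity) hs.ne', log_mul (by norm_num) pi_pos.ne']
  have l2 : log (2 * π * (13 * s)) = log 2 + log π + log 13 + log s := by
    rw [log_mul (by positivity) (by positivity), log_mul (by norm_num) pi_pos.ne',
      log_mul (by norm_num) hs.ne']; ring
  have l3 : log (2 * π * (3 / 52 * s)) = log 2 + log π + log (3 / 52) + log s := by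
    rw [log_mul (by positivity) (by positivity), log_mul (by norm_num) pi_pos.ne',
      log_mul (by norm_num) hs.ne']; ring
  have l4 : log (π * √3 * s) = log π + log 3 / 2 + log s := by
    rw [log_mul (by positivity) hs.ne', log_mul pi_pos.ne' (by positivity),
      log_sqrt (by norm_num)]
  have l5 : log (3 / 52 : ℝ) = log 3 - 2 * log 2 - log 13 := by
    rw [show (3 / 52 : ℝ) = 3 / (2 ^ 2 * 13) by norm_num, log_div (by norm_num) (by norm_num),
      log_mul (by norm_num) (by norm_num), log_pow]; push_cast; ring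
  have l6 : log (676 / 3 : ℝ) = 2 * log 2 + 2 * log 13 - log 3 := by
    rw [show (676 / 3 : ℝ) = 2 ^ 2 * 13 ^ 2 / 3 by norm_num,
      log_div (by norm_num) (by norm_num), log_mul (by norm_num) (by norm_num), log_pow, log_pow]
    push_cast; ring
  have hr1 : r < 1 := by
    have : log 13 < log (676 / 3 : ℝ) := log_lt_log (by norm_num) (by norm_num)
    by_contra hcon
    push Not at hcon
    have := le_mul_of_one_le_left (log_pos (show (1:ℝ) < 676 / 3 by norm_num)).le hcon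
    linarith
  have c2 := mul_le_mul_of_nonneg_left b2 hr0.le
  have c3 := mul_le_mul_of_nonneg_left b3 (show 0 ≤ 1 - r by linarith)
  rw [l1] at b1
  rw [l2] at c2
  rw [l3, l5] at c3
  rw [l6] at hgain hζdef
  rw [l4] at hlow
  nlinarith


/-- For `r < log 13 / log (676/3)` there is a finitely supported distribution on the lattice
with the entropy inequality needed for the counterexample. -/
lemma exists_dist {r : ℝ} (hr0 : 0 < r) (hr : r < log 13 / log (676 / 3)) :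
    ∃ (D : Finset (ℤ × ℤ)) (μ : ℤ × ℤ → ℝ) (s : ℝ), 0 < s ∧ (∀ v ∈ D, 0 < μ v) ∧
      ∑ v ∈ D, μ v = 1 ∧
      ∑ v ∈ D, μ v * (v.1 : ℝ) ^ 2 = s ∧ ∑ v ∈ D, μ v * (v.2 : ℝ) ^ 2 = s ∧
      ∑ v ∈ D, μ v * ((v.1 + v.2 : ℤ) : ℝ) ^ 2 = s ∧
      ∑ v ∈ D, μ v * ((3 * v.1 - v.2 : ℤ) : ℝ) ^ 2 = 13 * s ∧
      ∑ v ∈ D, μ v * ((v.1 : ℝ) - 7 * ((3 * v.1 - v.2 : ℤ) : ℝ) / 26) ^ 2 = 3 / 52 * s ∧
      log (normC s) + 1 / 2 + r * (log (normC (13 * s)) + 1 / 2) +
        (1 - r) * (log (normC (3 / 52 * s)) + 1 / 2) < ∑ v ∈ D, μ v * -log (μ v) := by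
  have hlog : 0 < log (676 / 3 : ℝ) := log_pos (by norm_num)
  have hgain : r * log (676 / 3) < log 13 := (lt_div_iff₀ hlog).mp hr
  set ζ := (log 13 - r * log (676 / 3)) / 16 with hζdef
  have hζ : 0 < ζ := by rw [hζdef]; linarith
  set S0 : ℝ := (52 / 3) * (2 / ζ) ^ 2 / (2 * π) with hS0
  have hS0pos : 0 < S0 := by positivity
  obtain ⟨β, R, hβ, hy3, hZge⟩ := exists_scale (big := exp (1 + 2 * log (normC S0))) hζ
  have hd := disc_gauss β R
  simp only at hd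
  obtain ⟨μ, hμdef⟩ : ∃ μ : ℤ × ℤ → ℝ, (fun v => exp (-(2 * β) * (qf v : ℝ)) /
      ∑ v ∈ disc R, exp (-(2 * β) * (qf v : ℝ))) = μ := ⟨_, rfl⟩
  have hμa : ∀ v, exp (-(2 * β) * (qf v : ℝ)) /
      ∑ v ∈ disc R, exp (-(2 * β) * (qf v : ℝ)) = μ v := fun v => congrFun hμdef v
  simp only [hμa] at hd
  obtain ⟨Z, hZdef⟩ : ∃ Z : ℝ, ∑ v ∈ disc R, exp (-(2 * β) * (qf v : ℝ)) = Z := ⟨_, rfl⟩
  rw [hZdef] at hd hZge
  obtain ⟨s, hsdef'⟩ : ∃ s : ℝ, ∑ v ∈ disc R, μ v * (v.1 : ℝ) ^ 2 = s := ⟨_, rfl⟩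
  have hsdef := hsdef'.symm
  rw [hsdef'] at hd
  obtain ⟨D, hD⟩ : ∃ D, disc R = D := ⟨_, rfl⟩
  rw [hD] at hd hsdef
  have hZpos : 0 < Z := lt_of_lt_of_le (by positivity) hZge
  obtain ⟨hμpos, hμsum, hs2, hs3, hx, hf, hPeq⟩ := hd
  have hsnn : 0 ≤ s := hsdef ▸ Finset.sum_nonneg
    fun v hv => mul_nonneg (hμpos v hv).le (sq_nonneg _)
  have hsbig : S0 < s := by
    by_contra hcon
    push Not at hcon
    have hq := entropy_le_two hS0pos hμpos hμsum hsdef.symm hs2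
    rw [hPeq] at hq
    have h1 : s / S0 ≤ 1 := (div_le_one hS0pos).mpr hcon
    have h2 := log_lt_log (exp_pos _) (lt_of_lt_of_le hy3 hZge)
    rw [log_exp] at h2
    have h3 : 0 ≤ 3 * β * s := by positivity
    linarith
  have hs : 0 < s := hS0pos.trans hsbig
  refine ⟨D, μ, s, hs, hμpos, hμsum, hsdef.symm, hs2, hs3, hx, hf, ?_⟩
  rw [hPeq]
  -- entropy from below
  have hlow : 1 + log (π * √3 * s) - ζ ≤ log Z + 3 * β * s := by
    have h1 : log (exp (-ζ) * (π / (β * √3))) ≤ log Z := log_le_log (by positivity) hZge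
    rw [log_mul (exp_pos _).ne' (by positivity), log_exp] at h1
    have h2 := log_le_sub_one_of_pos (show 0 < 3 * β * s by positivity)
    have h3 : log (π * √3 * s) = log (π / (β * √3)) + log (3 * β * s) := by
      rw [← log_mul (by positivity) (by positivity)]
      congr 1
      have : √3 * √3 = 3 := mul_self_sqrt (by norm_num)
      field_simp
      linear_combination this
    linarith
  exact final_arith hr0 hζdef hζ hgain hsbig hlow

/-- Weights of the product distribution. -/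
noncomputable def boxW (β : ℝ) (v : ℤ × ℤ) : ℝ :=
  exp (-β * (v.1 : ℝ) ^ 2) * exp (-β * (v.2 : ℝ) ^ 2)

/-- A symmetric box in the lattice. -/
noncomputable def box (K : ℕ) : Finset (ℤ × ℤ) :=
  Finset.Icc (-(K : ℤ)) K ×ˢ Finset.Icc (-(K : ℤ)) K

lemma exists_box {ζ big : ℝ} (hζ : 0 < ζ) :
    ∃ (β : ℝ) (K : ℕ), 0 < β ∧ big < exp (-ζ) * (π / β) ∧
      exp (-ζ) * (π / β) ≤ ∑ v ∈ box K, boxW β v := by
  set a := 1 - exp (-(ζ / 2)) with hadef
  have ha : 0 < a := by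
    have : exp (-(ζ / 2)) < 1 := exp_lt_one_iff.mpr (by linarith)
    linarith
  obtain ⟨y, hy, hy1, hy2⟩ : ∃ y : ℝ, 0 < y ∧ 1 ≤ a * (y * √π) ∧
      big < exp (-ζ) * (π * y ^ 2) := by
    have e : ∀ c : ℝ, 0 < c → ∀ M : ℝ, ∀ᶠ y : ℝ in Filter.atTop, M < c * y := fun c hc M =>
      (Filter.tendsto_id.const_mul_atTop hc).eventually_gt_atTop M
    obtain ⟨y, ⟨h1, h2⟩, h3⟩ := (((e (a * √π) (by positivity) 1).and
      (e (exp (-ζ) * π) (by positivity) big)).and (Filter.eventually_ge_atTop 1)).exists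
    refine ⟨y, by linarith, by linarith, lt_of_lt_of_le h2 ?_⟩
    have : y ≤ y ^ 2 := by nlinarith
    calc exp (-ζ) * π * y ≤ exp (-ζ) * π * y ^ 2 := by gcongr
      _ = _ := by ring
  have hconv : π / (1 / y ^ 2) = π * y ^ 2 := by field_simp
  have q1 : √(π / (1 / y ^ 2)) = y * √π := by
    rw [hconv, mul_comm, sqrt_mul (by positivity), sqrt_sq hy.le]
  obtain ⟨U, hU⟩ := exists_gauss_sum_ge (show 0 < 1 / y ^ 2 by positivity)
  rw [q1] at hU
  refine ⟨1 / y ^ 2, U.sup Int.natAbs, by positivity, hconv ▸ hy2, ?_⟩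
  rw [hconv]
  set K := U.sup Int.natAbs with hK
  have hsub : U ×ˢ U ⊆ box K := by
    intro v hv
    rw [Finset.mem_product] at hv
    have h1 : v.1.natAbs ≤ K := Finset.le_sup hv.1
    have h2 : v.2.natAbs ≤ K := Finset.le_sup hv.2
    simp only [box, Finset.mem_product, Finset.mem_Icc]
    omega
  refine le_trans ?_ (Finset.sum_le_sum_of_subset_of_nonneg hsub
    (fun v _ _ => mul_nonneg (exp_pos _).le (exp_pos _).le))
  rw [Finset.sum_product]
  simp only [boxW]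
  rw [← Finset.sum_mul_sum]
  have hg : exp (-(ζ / 2)) * (y * √π) ≤ ∑ n ∈ U, exp (-(1 / y ^ 2) * (n : ℝ) ^ 2) := by
    refine le_trans ?_ hU
    rw [hadef] at hy1
    linarith
  calc exp (-ζ) * (π * y ^ 2) = (exp (-(ζ / 2)) * (y * √π)) * (exp (-(ζ / 2)) * (y * √π)) := by
        rw [show -ζ = -(ζ / 2) + -(ζ / 2) by ring, exp_add]
        have : √π * √π = π := mul_self_sqrt pi_pos.le
        linear_combination -(exp (-(ζ / 2)) * exp (-(ζ / 2)) * y ^ 2) * this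
    _ ≤ _ := mul_le_mul hg hg (by positivity) (Finset.sum_nonneg fun _ _ => (exp_pos _).le)

lemma box_gauss (β : ℝ) (K : ℕ) :
    let Z := ∑ v ∈ box K, boxW β v
    let μ := fun v : ℤ × ℤ => boxW β v / Z
    let s := ∑ v ∈ box K, μ v * (v.1 : ℝ) ^ 2
    (∀ v ∈ box K, 0 < μ v) ∧ ∑ v ∈ box K, μ v = 1 ∧
      ∑ v ∈ box K, μ v * (v.2 : ℝ) ^ 2 = s ∧
      ∑ v ∈ box K, μ v * ((v.1 + v.2 : ℤ) : ℝ) ^ 2 = 2 * s ∧
      ∑ v ∈ box K, μ v * ((3 * v.1 - v.2 : ℤ) : ℝ) ^ 2 = 10 * s ∧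
      ∑ v ∈ box K, μ v * ((v.1 : ℝ) - 3 / 10 * ((3 * v.1 - v.2 : ℤ) : ℝ)) ^ 2 = 1 / 10 * s ∧
      ∑ v ∈ box K, μ v * -log (μ v) = log Z + 2 * β * s := by
  intro Z μ s
  have hne : (box K).Nonempty := ⟨(0, 0), by simp [box]⟩
  have hwpos : ∀ v, 0 < boxW β v := fun v => mul_pos (exp_pos _) (exp_pos _)
  have hZpos : 0 < Z := Finset.sum_pos (fun v _ => hwpos v) hne
  have hμsum : ∑ v ∈ box K, μ v = 1 := by
    simp only [μ, ← Finset.sum_div]; exact div_self hZpos.ne'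
  have hs1 : ∑ v ∈ box K, μ v * (v.1 : ℝ) ^ 2 = s := rfl
  have hs2 : ∑ v ∈ box K, μ v * (v.2 : ℝ) ^ 2 = s := by
    refine Finset.sum_nbij' (fun v => (v.2, v.1)) (fun v => (v.2, v.1)) ?_ ?_ ?_ ?_ ?_
    · intro v hv; simp only [box, Finset.mem_product] at hv ⊢; exact hv.symm
    · intro v hv; simp only [box, Finset.mem_product] at hv ⊢; exact hv.symm
    · intro v _; rfl
    · intro v _; rfl
    · intro v _; simp only [μ, boxW, mul_comm (exp (-β * (v.1 : ℝ) ^ 2))]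
  have hcross : ∑ v ∈ box K, μ v * ((v.1 : ℝ) * v.2) = 0 := by
    have h : ∑ v ∈ box K, μ v * ((v.1 : ℝ) * v.2) = ∑ v ∈ box K, -(μ v * ((v.1 : ℝ) * v.2)) := by
      refine Finset.sum_nbij' (fun v => (-v.1, v.2)) (fun v => (-v.1, v.2)) ?_ ?_ ?_ ?_ ?_
      · intro v hv; simp only [box, Finset.mem_product, Finset.mem_Icc] at hv ⊢; omega
      · intro v hv; simp only [box, Finset.mem_product, Finset.mem_Icc] at hv ⊢; omega
      · intro v _; simp
      · intro v _; simp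
      · intro v _; simp only [μ, boxW]; push_cast; ring_nf
    rw [Finset.sum_neg_distrib] at h
    linarith
  have key : ∀ p q : ℝ, ∑ v ∈ box K, μ v * (p * (v.1 : ℝ) + q * v.2) ^ 2 = (p ^ 2 + q ^ 2) * s := by
    intro p q
    have : ∀ v ∈ box K, μ v * (p * (v.1 : ℝ) + q * v.2) ^ 2 = p ^ 2 * (μ v * (v.1 : ℝ) ^ 2) +
        q ^ 2 * (μ v * (v.2 : ℝ) ^ 2) + 2 * p * q * (μ v * ((v.1 : ℝ) * v.2)) := by
      intro v _; ring
    rw [Finset.sum_congr rfl this, Finset.sum_add_distrib, Finset.sum_add_distrib,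
      ← Finset.mul_sum, ← Finset.mul_sum, ← Finset.mul_sum, hs1, hs2, hcross]
    ring
  refine ⟨fun v _ => div_pos (hwpos v) hZpos, hμsum, hs2, ?_, ?_, ?_, ?_⟩
  · rw [show (2 : ℝ) * s = ((1:ℝ) ^ 2 + 1 ^ 2) * s by ring, ← key]
    exact Finset.sum_congr rfl fun v _ => by push_cast; ring
  · rw [show (10 : ℝ) * s = ((3:ℝ) ^ 2 + (-1) ^ 2) * s by ring, ← key]
    exact Finset.sum_congr rfl fun v _ => by push_cast; ring
  · rw [show (1 / 10 : ℝ) * s = ((1/10:ℝ) ^ 2 + (3/10) ^ 2) * s by ring, ← key]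
    exact Finset.sum_congr rfl fun v _ => by push_cast; ring
  · have : ∀ v ∈ box K, μ v * -log (μ v) = log Z * μ v + β * (μ v * (v.1 : ℝ) ^ 2) +
        β * (μ v * (v.2 : ℝ) ^ 2) := by
      intro v _
      simp only [μ, boxW]
      rw [log_div (by positivity) hZpos.ne', ← exp_add, log_exp]
      ring
    rw [Finset.sum_congr rfl this, Finset.sum_add_distrib, Finset.sum_add_distrib,
      ← Finset.mul_sum, ← Finset.mul_sum, ← Finset.mul_sum, hμsum, hs1, hs2]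
    ring

lemma final_arith_zero {r a₂ ζ s P : ℝ} (hr0 : 0 < r) (ha0 : 0 ≤ a₂) (ha1 : a₂ ≤ 1)
    (hζdef : ζ = (log 10 - r * log 100 - a₂ * log 2) / 16) (hζ : 0 < ζ)
    (hr : r * log 100 + a₂ * log 2 < log 10)
    (hsbig : 10 * (2 / ζ) ^ 2 / (2 * π) < s) (hlow : 1 + log (2 * π * s) - ζ ≤ P) :
    (1 - a₂) * (log (normC s) + 1 / 2) + a₂ * (log (normC (2 * s)) + 1 / 2) +
      r * (log (normC (10 * s)) + 1 / 2) + (1 - r) * (log (normC (1 / 10 * s)) + 1 / 2) < P := by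
  have hS0pos : 0 < 10 * (2 / ζ) ^ 2 / (2 * π) := by positivity
  have hs : 0 < s := hS0pos.trans hsbig
  have hbnd : ∀ c : ℝ, 1 / 10 ≤ c → log (normC (c * s)) ≤ log (2 * π * (c * s)) / 2 + ζ := by
    intro c hc
    have hc0 : 0 < c := lt_of_lt_of_le (by norm_num) hc
    refine log_normC_le (by positivity) ?_
    have h1 : 1 / 10 * (10 * (2 / ζ) ^ 2 / (2 * π)) ≤ c * s :=
      mul_le_mul hc hsbig.le hS0pos.le hc0.le
    have h2 : 2 * π * (1 / 10 * (10 * (2 / ζ) ^ 2 / (2 * π))) = (2 / ζ) ^ 2 := by field_simp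
    have hk : (2 / ζ) ^ 2 ≤ 2 * π * (c * s) := by
      rw [← h2]; exact mul_le_mul_of_nonneg_left h1 (by positivity)
    have := sqrt_le_sqrt hk
    rw [sqrt_sq (by positivity), div_le_iff₀ hζ] at this
    linarith
  have l0 : log (2 * π * s) = log 2 + log π + log s := by
    rw [log_mul (by positivity) hs.ne', log_mul (by norm_num) pi_pos.ne']
  have lc : ∀ c : ℝ, 0 < c → log (2 * π * (c * s)) = log 2 + log π + log c + log s := by
    intro c hc
    rw [log_mul (by positivity) (by positivity), log_mul (by norm_num) pi_pos.ne',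
      log_mul hc.ne' hs.ne']; ring
  have b1 := hbnd 1 (by norm_num)
  rw [lc 1 one_pos, one_mul, log_one] at b1
  have b2 := hbnd 2 (by norm_num)
  rw [lc 2 two_pos] at b2
  have b3 := hbnd 10 (by norm_num)
  rw [lc 10 (by norm_num)] at b3
  have b4 := hbnd (1 / 10) (by norm_num)
  rw [lc (1 / 10) (by norm_num), show log (1 / 10 : ℝ) = -log 10 by rw [one_div, log_inv]] at b4
  have l100 : log (100 : ℝ) = 2 * log 10 := by
    rw [show (100 : ℝ) = 10 ^ 2 by norm_num, log_pow]; push_cast; ring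
  have hr1 : r ≤ 1 := by
    by_contra hcon
    push Not at hcon
    have h10 : 0 < log (10 : ℝ) := log_pos (by norm_num)
    have h2 : 0 ≤ a₂ * log 2 := mul_nonneg ha0 (log_nonneg (by norm_num))
    have := mul_lt_mul_of_pos_right hcon h10
    rw [l100] at hr
    linarith
  have c1 := mul_le_mul_of_nonneg_left b1 (show 0 ≤ 1 - a₂ by linarith)
  have c2 := mul_le_mul_of_nonneg_left b2 ha0
  have c3 := mul_le_mul_of_nonneg_left b3 hr0.le
  have c4 := mul_le_mul_of_nonneg_left b4 (show 0 ≤ 1 - r by linarith)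
  rw [l100] at hr hζdef
  rw [l0] at hlow
  nlinarith

/-- The product case, used for tuples with small `r / p₂`. -/
lemma exists_dist_zero {r a₂ : ℝ} (hr0 : 0 < r) (ha0 : 0 ≤ a₂) (ha1 : a₂ ≤ 1)
    (hr : r * log 100 + a₂ * log 2 < log 10) :
    ∃ (D : Finset (ℤ × ℤ)) (μ : ℤ × ℤ → ℝ) (s : ℝ), 0 < s ∧ (∀ v ∈ D, 0 < μ v) ∧
      ∑ v ∈ D, μ v = 1 ∧
      ∑ v ∈ D, μ v * (v.1 : ℝ) ^ 2 = s ∧ ∑ v ∈ D, μ v * (v.2 : ℝ) ^ 2 = s ∧
      ∑ v ∈ D, μ v * ((v.1 + v.2 : ℤ) : ℝ) ^ 2 = 2 * s ∧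
      ∑ v ∈ D, μ v * ((3 * v.1 - v.2 : ℤ) : ℝ) ^ 2 = 10 * s ∧
      ∑ v ∈ D, μ v * ((v.1 : ℝ) - 3 / 10 * ((3 * v.1 - v.2 : ℤ) : ℝ)) ^ 2 = 1 / 10 * s ∧
      (1 - a₂) * (log (normC s) + 1 / 2) + a₂ * (log (normC (2 * s)) + 1 / 2) +
        r * (log (normC (10 * s)) + 1 / 2) + (1 - r) * (log (normC (1 / 10 * s)) + 1 / 2)
        < ∑ v ∈ D, μ v * -log (μ v) := by
  set ζ := (log 10 - r * log 100 - a₂ * log 2) / 16 with hζdef
  have hζ : 0 < ζ := by rw [hζdef]; linarith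
  set S0 : ℝ := 10 * (2 / ζ) ^ 2 / (2 * π) with hS0
  have hS0pos : 0 < S0 := by positivity
  obtain ⟨β, K, hβ, hbig, hZge⟩ := exists_box (big := exp (1 + 2 * log (normC S0))) hζ
  have hd := box_gauss β K
  simp only at hd
  obtain ⟨μ, hμdef⟩ : ∃ μ : ℤ × ℤ → ℝ, (fun v => boxW β v / ∑ v ∈ box K, boxW β v) = μ :=
    ⟨_, rfl⟩
  have hμa : ∀ v, boxW β v / ∑ v ∈ box K, boxW β v = μ v := fun v => congrFun hμdef v
  simp only [hμa] at hd
  obtain ⟨Z, hZdef⟩ : ∃ Z : ℝ, ∑ v ∈ box K, boxW β v = Z := ⟨_, rfl⟩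
  rw [hZdef] at hd hZge
  obtain ⟨s, hsdef'⟩ : ∃ s : ℝ, ∑ v ∈ box K, μ v * (v.1 : ℝ) ^ 2 = s := ⟨_, rfl⟩
  rw [hsdef'] at hd
  obtain ⟨D, hD⟩ : ∃ D, box K = D := ⟨_, rfl⟩
  rw [hD] at hd hsdef'
  obtain ⟨hμpos, hμsum, hs2, hs3, hx, hf, hPeq⟩ := hd
  have hsnn : 0 ≤ s := hsdef' ▸ Finset.sum_nonneg
    fun v hv => mul_nonneg (hμpos v hv).le (sq_nonneg _)
  have hsbig : S0 < s := by
    by_contra hcon
    push Not at hcon
    have hq := entropy_le_two hS0pos hμpos hμsum hsdef' hs2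
    rw [hPeq] at hq
    have h1 : s / S0 ≤ 1 := (div_le_one hS0pos).mpr hcon
    have h2 := log_lt_log (exp_pos _) (lt_of_lt_of_le hbig hZge)
    rw [log_exp] at h2
    have h3 : 0 ≤ 2 * β * s := by positivity
    linarith
  have hs : 0 < s := hS0pos.trans hsbig
  refine ⟨D, μ, s, hs, hμpos, hμsum, hsdef', hs2, hs3, hx, hf, ?_⟩
  rw [hPeq]
  have hlow : 1 + log (2 * π * s) - ζ ≤ log Z + 2 * β * s := by
    have h1 : log (exp (-ζ) * (π / β)) ≤ log Z := log_le_log (by positivity) hZge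
    rw [log_mul (exp_pos _).ne' (by positivity), log_exp] at h1
    have h2 := log_le_sub_one_of_pos (show 0 < 2 * β * s by positivity)
    have h3 : log (2 * π * s) = log (π / β) + log (2 * β * s) := by
      rw [← log_mul (by positivity) (by positivity)]
      congr 1
      field_simp
    linarith
  exact final_arith_zero hr0 ha0 ha1 hζdef hζ hr hsbig hlow

end Vale.Agent.P141
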